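import Crest.Agent.X212.St29.Defs
import Crest.Agent.X212.Hel40.Bas

/-!
# X212 / Lev39 / Trp (helper39): level zero on the cable manifold

* `bas_of`, `ret_of`, `sm_push` : generic;
* `ic` calculus : `ld_ic`, `ic_inj`, `cover`, `jc`, `Phi_ic`;
* `trp : St29.TrpStmt`.
-/

set_option autoImplicit false
set_option linter.unusedSectionVars false

open Set Filter Topology Function
open scoped ContDiff Manifold
open Crest.GeometryTopology.DehnSurgery Crest.Agent.X212.Glue52 Crest.Agent.X212.Ext52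
open Crest.Agent.X212.Sm10 Crest.Agent.X212.Hel40 Crest.Agent.X212.St29
open Crest.Agent.X212.Cab39 hiding rt
open Crest.Agent.X212.Dr59 (mf mf_comp mf_congr ne0)
open Crest.Agent.X212.Sep15 (CM)
open Crest.Agent.X212.Bb31 (Fm)
open Crest.Agent.X212.Int54 (Ori)
open Crest.Agent.X212.Flo26 (SmV)
open Crest.Agent.X212.Line51 (CSm)

noncomputable section

namespace Crest.Agent.X212.Lev39

/-! ### generic lemmas -/

section gen

variable {Y : CM 3} {o : Fm 3 Y} {v : Vf Y} {Φ : Y → Circle} {M : Set Y}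

/-- the rate is automatically non-negative on the plateau -/
theorem bas_of (ho : Ori (𝓡 3) o) (hv : SmV (𝓡 3) v) (hΦ : SC Φ) (hM : IsClosed M)
    (hp : ∀ y ∉ M, 0 < rt Φ v y) (h1 : ∀ y ∈ M, Φ y = 1) : Bas o v Φ M := by
  refine ⟨ho, hv, hΦ, hM, fun y => ?_, hp, h1⟩
  by_cases hy : y ∈ interior M
  · rw [rt, dl_of_const (eventually_of_mem (mem_interior_iff_mem_nhds.1 hy) h1)]
    exact le_rfl
  · rw [← mem_compl_iff, ← closure_compl] at hy
    exact closure_minimal (fun z hz => (hp z hz).le)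
      (isClosed_le continuous_const (continuous_rt hv hΦ)) hy

theorem sq_eq_one {u : Circle} : u ^ 2 = 1 ↔ u = 1 ∨ u = -1 := by
  rw [Circle.ext_iff, Circle.ext_iff, Circle.ext_iff, sq, Circle.coe_mul, Circle.coe_one,
    mul_self_eq_one_iff, Circle.coe_neg, Circle.coe_one]

theorem neg_ne_one : (-1 : Circle) ≠ 1 := fun e => by
  have := congrArg (fun u : Circle => (u : ℂ).re) e
  norm_num at this

/-- an orbit along which `Φ` has a square root passes `Φ = 1` between two visits to the root `-1` -/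
theorem ret_of (h : Bas o v Φ M) {O : Set Y} {a : Y → Circle} (ha : ContinuousOn a O)
    (h2 : ∀ y ∈ O, Φ y = a y ^ 2) {y : Y} (hO : ∀ s, Flo26.fl v s y ∈ O) (hy : y ∉ M)
    (h0 : a y = -1) {T : ℝ} (hT : 0 < T) (h1 : a (Flo26.fl v T y) = -1) :
    ∃ t ∈ Ioo 0 T, Φ (Flo26.fl v t y) = 1 := by
  have z := Flo26.fl_zero h.smv y
  have e0 : Φ y = 1 := by rw [h2 y (z ▸ hO 0), h0, sq_eq_one.2 (.inr rfl)]
  have e := fun t => (phi_fl h.smv h.smΦ y t).trans ((congrArg (· * _) e0).trans (one_mul _))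
  have cg : Continuous (ag Φ v y) :=
    continuous_iff_continuousAt.2 fun t => (hasDerivAt_ag h.smv h.smΦ y t).continuousAt
  have p : 0 < ag Φ v y T := by
    simpa only [ag_zero] using (ag_strict h.smv h.smΦ h.nn (t := 0) (by rw [z]; exact h.pos y hy)).2 T hT
  let g : ℝ → Circle := fun t => a (Flo26.fl v t y) * Circle.exp (-(ag Φ v y t / 2))
  have cg' : Continuous g := (ha.comp_continuous (fl_cont' h.smv continuous_id continuous_const) hO).mul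
    (Circle.exp.continuous.comp (cg.div_const 2).neg)
  have g2 : ∀ t, g t = 1 ∨ g t = -1 := fun t => sq_eq_one.1 (by
    rw [mul_pow, ← h2 _ (hO t), e, sq, ← Circle.exp_add, ← Circle.exp_add, ← Circle.exp_zero]
    congr 1
    ring)
  have g3 : g T = g 0 := isPreconnected_univ.constant_of_mapsTo (T := {1, -1})
    (toFinite _).isDiscrete cg'.continuousOn (fun t _ => g2 t) trivial trivial
  simp only [g, h1, z, h0, ag_zero, zero_div, neg_zero, Circle.exp_zero, mul_right_inj] at g3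
  obtain ⟨n, hn⟩ := Circle.exp_eq_one.1 g3
  have n0 : (n : ℝ) ≤ -1 := by
    have : (n : ℝ) < 0 := by nlinarith [Real.pi_pos]
    exact_mod_cast Int.le_sub_one_of_lt (by exact_mod_cast this : n < 0)
  obtain ⟨t, ht, k⟩ := intermediate_value_Ioo hT.le cg.continuousOn (show 2 * Real.pi ∈ _ from
    ⟨by rw [ag_zero]; positivity, by nlinarith [Real.pi_pos]⟩)
  exact ⟨t, ht, by rw [e, k, Circle.exp_two_pi]⟩

/-- a field which is the push-forward of a smooth field is smooth -/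
theorem sm_push {e : E3 → Y} {O : Set E3} (hO : IsOpen O)
    (he : ∀ p ∈ O, IsLocalDiffeomorphAt (𝓡 3) (𝓡 3) ∞ e p) {V : E3 → E3} (hV : ContDiffOn ℝ ∞ V O)
    (h : ∀ p ∈ O, (v (e p) : E3) = mfderiv (𝓡 3) (𝓡 3) e p (V p)) {p : E3} (hp : p ∈ O) :
    ContMDiffAt (𝓡 3) (𝓡 3).tangent ∞ (fun y => (⟨y, v y⟩ : TangentBundle (𝓡 3) Y)) (e p) := by
  refine contMDiffAt_of_comp (he p hp) ?_
  have h1 := ContMDiffOn.contMDiffOn_tangentMapWithin (m := ∞)
    (fun p hp => (he p hp).contMDiffAt.contMDiffWithinAt : ContMDiffOn (𝓡 3) (𝓡 3) ∞ e O) (by simp)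
    hO.uniqueMDiffOn
  have h2 := h1.comp (contMDiffOn_vectorSpace_iff_contDiffOn.2 hV) fun z hz => hz
  refine (h2.congr fun z hz => ?_).contMDiffAt (hO.mem_nhds hp)
  simp only [comp, tangentMapWithin]
  rw [mfderivWithin_of_isOpen hO hz, ← h z hz]

end gen

/-! ### the chart of the exterior -/

variable {t : Tube} {r ρ : ℝ} {p q : E3}

theorem isOpen_Out (t : Tube) (r : ℝ) : IsOpen (Out t r) :=
  (isClosed_ctube t r).isOpen_compl.preimage (isOpenEmbedding_sg t).continuous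

theorem Out_anti (h : ρ ≤ r) : Out t r ⊆ Out t ρ := fun _ hp k =>
  hp (image_mono (fun _ (hv : _ ≤ ρ) => hv.trans h) k)

theorem not_otube (h : p ∈ Out t r) : sg t p ∉ otube t r := fun k => h (otube_subset t r k)

theorem cab_of_Out (hr : 2 ≤ r) (h : p ∈ Out t r) : sg t p ∈ (cabT t).Ext :=
  mem_cab_of_otube hr (not_otube h)

theorem ld_ic (hr : 2 ≤ r) (h : p ∈ Out t r) : IsLocalDiffeomorphAt (𝓡 3) (𝓡 3) ∞ (ic t) p :=
  (ld_sg t p).comp _ _ (ld_io (cab_of_Out hr h))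

theorem ic_inj (hr : 2 ≤ r) : InjOn (ic t) (Out t r) := fun _ h _ h' e =>
  sg_injective t (io_inj (cab_of_Out hr h) (cab_of_Out hr h') e)

theorem isOpen_ic (hr : 2 ≤ r) {S : Set E3} (hS : IsOpen S) (h : S ⊆ Out t r) : IsOpen (ic t '' S) :=
  isOpen_iff_mem_nhds.2 <| by
    rintro _ ⟨p, hp, rfl⟩
    exact ld_image_mem (ld_ic hr (h hp)) (hS.mem_nhds hp)

theorem ic_mem_Q (hr : 2 ≤ r) (hρ : 2 ≤ ρ) (h : p ∈ Out t ρ) : ic t p ∈ Q t r ↔ sg t p ∈ otube t r :=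
  io_mem_Q hr (cab_of_Out hρ h)

theorem cover (hr : 2 ≤ r) (h : ρ < r) {y : Yc t} (hy : y ∉ Q t r) : y ∈ ic t '' Out t ρ := by
  obtain ⟨x, hx, rfl⟩ := (compl_Q hr).subset hy
  obtain ⟨p, rfl⟩ : x ∈ range (sg t) := by
    rw [range_sg]
    rintro rfl
    exact hx (τ_mem_otube.2 (by simpa using two_pos.trans_le hr))
  exact ⟨p, fun k => hx (image_mono (fun _ (hv : _ ≤ ρ) => hv.trans_lt h) k), rfl⟩

theorem tb_mem_Out {z : Circle × ℂ} (h : z.2 ≠ 0) : tb t z ∈ Out t r ↔ r < ‖z.2‖ := by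
  rw [Out, mem_ofPred_eq, sg_tb h, τ_mem_ctube, not_le]

theorem ic_tb {z : Circle × ℂ} (h : z.2 ≠ 0) : ic t (tb t z) = qa t z := congrArg (io t) (sg_tb h)

theorem shell (hr : 2 ≤ r) (hρ : 2 ≤ ρ) (h : p ∈ Out t ρ) (h' : ic t p ∈ Q t r) :
    ∃ z : Circle × ℂ, ρ < ‖z.2‖ ∧ ‖z.2‖ < r ∧ tb t z = p := by
  obtain ⟨z, hz, e⟩ := (ic_mem_Q hr hρ h).1 h'
  exact ⟨z, not_le.1 fun k => h ⟨z, k, e⟩, hz, tb_of_sg e.symm⟩

/-- the inverse chart -/
def jc (t : Tube) : Yc t → E3 := invFunOn (ic t) (Out t 2)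

theorem jc_ic (hr : 2 ≤ r) (h : p ∈ Out t r) : jc t (ic t p) = p :=
  (ic_inj le_rfl).leftInvOn_invFunOn (Out_anti hr h)

theorem sm_jc (hr : 2 ≤ r) (h : p ∈ Out t r) : ContMDiffAt (𝓡 3) (𝓡 3) ∞ (jc t) (ic t p) :=
  contMDiffAt_of_comp (ld_ic hr h) (contMDiffAt_id.congr_of_eventuallyEq
    (eventually_of_mem ((isOpen_Out t r).mem_nhds h) fun _ hq => jc_ic hr hq))

theorem continuousOn_jc (hr : 2 ≤ r) : ContinuousOn (jc t) (ic t '' Out t r) := by
  rintro _ ⟨p, hp, rfl⟩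
  exact (sm_jc hr hp).continuousAt.continuousWithinAt

theorem continuousOn_ic (hr : 2 ≤ r) : ContinuousOn (ic t) (Out t r) := fun _ hp =>
  (ld_ic hr hp).contMDiffAt.continuousAt.continuousWithinAt

theorem th_eq_thK (k : KD) (hr : 0 < r) (h : p ∈ Out k.toTube r) : th k p = thK k (sg k.toTube p) :=
  (th_eq k (mem_Ext_of_otube hr (not_otube h))).trans (ex_mem _ _ _).symm

theorem Phi_ic (k : KD) (hr : 3 ≤ r) (h : p ∈ Out k.toTube r) : Phi k (ic k.toTube p) = th k p ^ 2 := by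
  rw [th_eq_thK k (by linarith) h]
  exact Phi_far k (not_otube (Out_anti hr h))

theorem csm_th (k : KD) (hr : 0 < r) (h : p ∈ Out k.toTube r) : CSm (𝓡 3) (th k) p :=
  ((contMDiffAt_thK k (mem_Ext_of_otube hr (not_otube h))).comp p
    ((ld_sg _).contMDiff p)).congr_of_eventuallyEq
      (eventually_of_mem ((isOpen_Out _ r).mem_nhds h) fun _ hq => th_eq_thK k hr hq)

/-- in the shell the generator of the flow is the meridional rotation read in the chart -/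
theorem vf_shell (hr : 3 ≤ r) {z : Circle × ℂ} (h : 4 ≤ ‖z.2‖) (h' : ‖z.2‖ ≤ r) :
    (vf t r (ic t (tb t z)) : E3) = mfderiv (𝓡 3) (𝓡 3) (ic t) (tb t z) (mfderiv IT (𝓡 3) (tb t) z
      ((0, Complex.I * z.2) : EuclideanSpace ℝ (Fin 1) × ℂ)) := by
  have h0 : z.2 ≠ 0 := norm_pos_iff.1 (by linarith)
  have e : ic t ∘ tb t =ᶠ[𝓝 z] qa t :=
    (continuous_snd.continuousAt.eventually_ne h0).mono fun w hw => ic_tb hw
  have h1 := mf_comp ((ld_ic (r := 3) (by norm_num) ((tb_mem_Out h0).2 (by linarith))).mdifferentiableAt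
    ne0) ((contMDiffAt_tb (t := t) h0).mdifferentiableAt ne0)
  rw [mf_congr e] at h1
  have h2 := vf_qa (t := t) hr (ff_ne_of_le (v := z) (by linarith))
  rw [gen_fV_mid h h'] at h2
  exact (congrArg (fun y => (vf t r y : E3)) (ic_tb h0)).trans
    (h2.trans (congrArg (fun L : _ →L[ℝ] E3 => L _) h1))

theorem rt_vf (k : KD) (hr : 3 ≤ r) {y : Yc k.toTube} (hy : y ∈ Q k.toTube r) :
    dl (𝓡 3) (Phi k) y (vf _ r y) = 2 := by
  have h := dPhi_vf k hr y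
  rw [sp_one hr hy] at h
  refine (dl_apply _).trans ((congrArg (fun w => (star (Phi k y : ℂ) * w).im) h).trans ?_)
  rw [mul_left_comm, Complex.star_def, ← Complex.normSq_eq_conj_mul_self, Circle.normSq_coe]
  simp

/-- an orbit which starts outside stays outside -/
theorem orbit_out (hr : 3 ≤ r) (hρ : 2 ≤ ρ) {v : Vf (Yc t)} (hv : SmV (𝓡 3) v)
    (e : ∀ y ∈ Q t r, vf t r y = v y) (h : ρ ≤ r) {y : Yc t} (hy : y ∉ Q t ρ) (s : ℝ) :
    Flo26.fl v s y ∉ Q t ρ := fun k => by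
  have k' : Flo26.fl v s y ∈ Q t r := k.imp (fun ⟨w, hw, e⟩ => ⟨w, ⟨hw.1, hw.2.trans_le h⟩, e⟩) id
  have h1 := (Flo26.fl_congr (smV_vf hr) hv (isOpen_Q r) e (T := -s) (x := Flo26.fl v s y)
    (Flo26.complete_of_compactSpace (smV_vf hr) _) fun τ _ => by
      rwa [fl_vf hr, flo_mem_Q hr (by linarith)]).2
  rw [← fl_add hv, neg_add_cancel, Flo26.fl_zero hv, fl_vf hr] at h1
  exact hy (h1 ▸ (flo_mem_Q hr hρ _ _).2 k)

/-- the three conclusions for an abstract field and circle map -/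
theorem trp_aux {k : KD} {V : E3 → E3} {ψ : E3 → ℝ} {M L : Set E3} {w : E3 → Circle} (hr : 16 ≤ r)
    (S : SS k r V ψ M) (G : Gc (Sei k r ψ) w L) {c : ℝ}
    (hc : ∀ z : Circle × ℂ, r / 4 < ‖z.2‖ → ‖z.2‖ ≤ r → ψ (tb k.toTube z) = c)
    {v : Vf (Yc k.toTube)} {Φ : Yc k.toTube → Circle} {o : Fm 3 (Yc k.toTube)} (ho : Ori (𝓡 3) o)
    (sv : SmV (𝓡 3) v) (sΦ : SC Φ) (v1 : ∀ y ∈ Q k.toTube r, vf _ r y = v y)
    (v2 : ∀ p ∈ Out k.toTube (r / 4), p ∉ M →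
      (v (ic _ p) : E3) = mfderiv (𝓡 3) (𝓡 3) (ic k.toTube) p (V p))
    (Φ1 : ∀ y ∈ Q k.toTube r, Φ y = Phi k y * Circle.exp (2 * c))
    (Φ2 : ∀ p ∈ Out k.toTube (r / 4), Φ (ic _ p) = An k ψ p ^ 2) :
    Bas o v Φ (ic k.toTube '' M) ∧ IsPreconnected (PP Φ (ic k.toTube '' M)) ∧
      ∃ F w' L', Cert v Φ (ic k.toTube '' M) F w' L' := by
  have r4 : 2 ≤ r / 4 := by linarith
  have r2 : 2 ≤ r / 2 := by linarith
  have r1 : 2 ≤ r := by linarith
  have r3 : 3 ≤ r := by linarith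
  have o24 : Out k.toTube (r / 2) ⊆ Out k.toTube (r / 4) := Out_anti (by linarith)
  have o12 : Out k.toTube r ⊆ Out k.toTube (r / 2) := Out_anti (by linarith)
  have M4 : M ⊆ Out k.toTube (r / 4) := S.sub.trans (o12.trans o24)
  have oO : ∀ p ∈ Out k.toTube (r / 4), ∀ᶠ q in 𝓝 p, q ∈ Out k.toTube (r / 4) := fun p hp =>
    (isOpen_Out _ _).mem_nhds hp
  have sA : ∀ p ∈ Out k.toTube (r / 4), CSm (𝓡 3) (An k ψ) p := fun p hp =>
    (csm_th k (by linarith) hp).mul (csm_exp (S.smψ.contDiffAt (oO p hp)).contMDiffAt)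
  have nM : ∀ p ∈ Out k.toTube (r / 4), ic _ p ∈ ic k.toTube '' M ↔ p ∈ M := fun p hp =>
    (ic_inj r4).mem_image_iff M4 hp
  have QM : ∀ y ∈ Q k.toTube r, y ∉ ic k.toTube '' M := by
    rintro _ hy ⟨p, hp, rfl⟩
    exact not_otube (S.sub hp) ((ic_mem_Q r1 r1 (S.sub hp)).1 hy)
  have nM1 : ∀ p, An k ψ p = -1 → p ∉ M := fun p h hp => neg_ne_one (h.symm.trans (S.one p hp))
  have B : Bas o v Φ (ic k.toTube '' M) := by
    refine bas_of ho sv sΦ (S.cpt.image_of_continuousOn ((continuousOn_ic r4).mono M4)).isClosed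
      (fun y hy => ?_) ?_
    · by_cases h : y ∈ Q k.toTube r
      · have e : Φ =ᶠ[𝓝 y] Phi k * fun _ => Circle.exp (2 * c) :=
          eventually_of_mem ((isOpen_Q r).mem_nhds h) Φ1
        rw [rt, dl_congr e, dl_mul (contMDiff_Phi k y) contMDiffAt_const, dl_const, add_zero, ← v1 y h]
        exact (rt_vf k r3 h).symm ▸ two_pos
      · obtain ⟨p, hp, rfl⟩ := cover r1 (by linarith : r / 4 < r) h
        have hM := mt (nM p hp).2 hy
        have h1 := dl_comp (sΦ _) ((ld_ic r4 hp).mdifferentiableAt ne0) (V p)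
        rw [dl_congr (h := An k ψ ^ 2) ((oO p hp).mono Φ2), dl_pow (sA p hp)] at h1
        rw [rt, v2 p hp hM]
        exact lt_of_lt_of_eq (mul_pos (by norm_num) (S.ps p hp hM)) h1
    · rintro _ ⟨p, hp, rfl⟩
      rw [Φ2 p (M4 hp), S.one p hp, one_pow]
  have pt : ∀ u : Circle, u ^ 2 = 1 → ∃ p ∈ Out k.toTube (r / 2), An k ψ p = u ∧ p ∉ M ∧
      ic _ p ∈ Q k.toTube r := fun u _ => by
    let z : Circle × ℂ := (1, ((3 * r / 4 : ℝ) : ℂ) * (u * Circle.exp (-c) : Circle))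
    have n : ‖z.2‖ = 3 * r / 4 := by
      rw [norm_mul, Circle.norm_coe, mul_one, Complex.norm_real, Real.norm_of_nonneg (by linarith)]
    have h0 : z.2 ≠ 0 := norm_pos_iff.1 (by linarith)
    refine ⟨tb _ z, (tb_mem_Out h0).2 (by linarith), ?_,
      fun h => by linarith [(tb_mem_Out h0).1 (S.sub h)], ?_⟩
    · rw [An, th_tb k h0, hc z (by linarith) (by linarith), dir_mul (by linarith), mul_assoc,
        ← Circle.exp_add, neg_add_cancel, Circle.exp_zero, mul_one]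
    · rw [ic_tb h0, qa_mem_Q r1 (ff_ne_of_le (by linarith))]
      linarith
  have e1 : ∀ y ∈ Q k.toTube r, Φ y = 1 ↔ Phi k y = Circle.exp (-(2 * c)) := fun y hy => by
    rw [Φ1 y hy, Circle.exp_neg, mul_eq_one_iff_eq_inv]
  have sF : ∀ p ∈ Sei k r ψ, ic _ p ∈ PP Φ (ic k.toTube '' M) := fun p hp =>
    ⟨by rw [Φ2 p (o24 hp.1), hp.2, sq_eq_one.2 (.inr rfl)], mt (nM p (o24 hp.1)).1 (nM1 p hp.2)⟩
  have cF : IsPreconnected (ic k.toTube '' Sei k r ψ) :=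
    S.c1.image _ ((continuousOn_ic r2).mono fun _ h => h.1)
  refine ⟨B, ?_, ic _ '' Sei k r ψ, w ∘ jc _, ic _ '' L, ⟨ic _ '' {p | p ∈ Out _ (r / 2) ∧ An k ψ p ≠ 1},
    isOpen_ic r2 (ContinuousOn.isOpen_inter_preimage (fun p hp =>
      (sA p (o24 hp)).continuousAt.continuousWithinAt) (isOpen_Out _ _) isOpen_ne) fun _ h => h.1, ?_⟩,
    cF, G.cpt.image_of_continuousOn ((continuousOn_ic r2).mono fun _ h => (G.sub h).1),
    image_mono G.sub, G.cont.comp ((continuousOn_jc r2).mono (image_mono fun _ h => h.1)) ?_, ?_, ?_, ?_⟩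
  · obtain ⟨p0, a0, b0, c0, d0⟩ := pt 1 (one_pow _)
    obtain ⟨p1, a1, b1, -, d1⟩ := pt (-1) (sq_eq_one.2 (.inr rfl))
    have m : ∀ p ∈ Out k.toTube (r / 2), An k ψ p ^ 2 = 1 → ic _ p ∈ Q k.toTube r →
        ic _ p ∈ Q k.toTube r ∩ Phi k ⁻¹' {Circle.exp (-(2 * c))} := fun p h1 h2 h3 =>
      ⟨h3, (e1 _ h3).1 ((Φ2 p (o24 h1)).trans h2)⟩
    have h0 := S.c0.image _ ((continuousOn_ic r2).mono fun _ h => h.1)
    have h1 := (conn_lev k r1 (Circle.exp (-(2 * c)))).isPreconnected.union (ic _ p0) (m p0 a0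
      (by rw [b0, one_pow]) d0) (mem_image_of_mem _ (by exact ⟨a0, b0, c0⟩)) h0
    have h2 := h1.union (ic _ p1) (.inl (m p1 a1 (sq_eq_one.2 (.inr b1)) d1))
      (mem_image_of_mem _ (by exact ⟨a1, b1⟩)) cF
    convert h2 using 1
    refine Subset.antisymm (fun y hy => ?_) ?_
    · by_cases h : y ∈ Q k.toTube r
      · exact .inl (.inl ⟨h, (e1 y h).1 hy.1⟩)
      · obtain ⟨p, hp, rfl⟩ := cover r1 (by linarith : r / 2 < r) h
        rcases sq_eq_one.1 ((Φ2 p (o24 hp)).symm.trans hy.1) with h' | h'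
        exacts [.inl (.inr ⟨p, ⟨hp, h', mt (nM p (o24 hp)).2 hy.2⟩, rfl⟩), .inr ⟨p, ⟨hp, h'⟩, rfl⟩]
    · rintro y ((hy | ⟨p, hp, rfl⟩) | ⟨p, hp, rfl⟩)
      · exact ⟨(e1 y hy.1).2 hy.2, QM y hy.1⟩
      · exact ⟨by rw [Φ2 p (o24 hp.1), hp.2.1, one_pow], mt (nM p (o24 hp.1)).1 hp.2.2⟩
      · exact sF p hp
  · refine Subset.antisymm ?_ ?_
    · rintro _ ⟨p, hp, rfl⟩
      exact ⟨sF p hp, p, ⟨hp.1, hp.2 ▸ neg_ne_one⟩, rfl⟩
    · rintro _ ⟨h, p, hp, rfl⟩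
      exact ⟨p, ⟨hp.1, (sq_eq_one.1 ((Φ2 p (o24 hp.1)).symm.trans h.1)).resolve_left hp.2⟩, rfl⟩
  · rintro _ ⟨p, hp, rfl⟩
    rwa [jc_ic r2 hp.1]
  · rintro _ ⟨p, hp, rfl⟩ h
    rw [comp_apply, jc_ic r2 hp.1]
    exact G.off p hp fun h' => h ⟨p, h', rfl⟩
  · rintro ⟨l, h1, h2⟩
    refine G.nl ⟨l ∘ ic _, h1.comp ((continuousOn_ic r2).mono fun _ h => h.1) (mapsTo_image _ _),
      fun p hp => ?_⟩
    simpa only [comp_apply, jc_ic r2 hp.1] using h2 _ ⟨p, hp, rfl⟩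
  · rintro _ ⟨p, hp, rfl⟩ T hT ⟨q, hq, e⟩
    refine ret_of B (O := ic _ '' Out k.toTube (r / 4)) (a := An k ψ ∘ jc _)
      (ContinuousOn.comp (fun p hp => (sA p hp).continuousAt.continuousWithinAt) (continuousOn_jc r4) ?_)
      ?_ (fun s => cover r2 (by linarith) (orbit_out r3 r2 sv v1 (by linarith)
        (fun h => not_otube hp.1 ((ic_mem_Q r2 r2 hp.1).1 h)) s)) (sF p hp).2 ?_ hT ?_
    · rintro _ ⟨p, hp, rfl⟩
      rwa [jc_ic r4 hp]
    · rintro _ ⟨p, hp, rfl⟩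
      rw [comp_apply, jc_ic r4 hp, Φ2 p hp]
    · rw [comp_apply, jc_ic r2 hp.1, hp.2]
    · rw [← e, comp_apply, jc_ic r2 hq.1, hq.2]

/-- **TRP** -/
theorem trp : TrpStmt := by
  classical
  intro k r V ψ M w L hr S G
  obtain ⟨c, hc⟩ := S.std
  have r4 : 2 ≤ r / 4 := by linarith
  have r1 : 2 ≤ r := by linarith
  have r3 : 3 ≤ r := by linarith
  let v : Vf (Yc k.toTube) := fun y => if y ∈ Q k.toTube r then vf _ r y else
    (mfderiv (𝓡 3) (𝓡 3) (ic k.toTube) (jc _ y) (V (jc _ y)) : E3)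
  let l : Yc k.toTube → ℝ := fun y => if y ∈ Q k.toTube r then 2 * c else 2 * ψ (jc _ y)
  have v1 : ∀ y ∈ Q k.toTube r, v y = vf _ r y := fun y hy => if_pos hy
  have l1 : ∀ y ∈ Q k.toTube r, l y = 2 * c := fun y hy => if_pos hy
  have v2 : ∀ p ∈ Out k.toTube (r / 4),
      (v (ic _ p) : E3) = mfderiv (𝓡 3) (𝓡 3) (ic k.toTube) p (V p) := fun p hp => by
    by_cases h : ic _ p ∈ Q k.toTube r
    · obtain ⟨z, h1, h2, rfl⟩ := shell r1 r4 hp h
      rw [(hc z h1 h2.le).2]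
      exact (v1 _ h).trans (vf_shell r3 (by linarith) h2.le)
    · exact (if_neg h).trans (congrArg (fun q => (mfderiv (𝓡 3) (𝓡 3) (ic k.toTube) q (V q) : E3))
        (jc_ic r4 hp))
  have l2 : ∀ p ∈ Out k.toTube (r / 4), l (ic _ p) = 2 * ψ p := fun p hp => by
    by_cases h : ic _ p ∈ Q k.toTube r
    · obtain ⟨z, h1, h2, rfl⟩ := shell r1 r4 hp h
      rw [(hc z h1 h2.le).1, l1 _ h]
    · exact (if_neg h).trans (by rw [jc_ic r4 hp])
  have oQ : ∀ y ∈ Q k.toTube r, ∀ᶠ z in 𝓝 y, z ∈ Q k.toTube r := fun y hy => (isOpen_Q r).mem_nhds hy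
  have oO : ∀ p ∈ Out k.toTube (r / 4), ∀ᶠ q in 𝓝 p, q ∈ Out k.toTube (r / 4) := fun p hp =>
    (isOpen_Out _ _).mem_nhds hp
  have sψ : ∀ p ∈ Out k.toTube (r / 4), ContMDiffAt (𝓡 3) 𝓘(ℝ, ℝ) ∞ ψ p := fun p hp =>
    (S.smψ.contDiffAt (oO p hp)).contMDiffAt
  have sv : SmV (𝓡 3) v := fun y => by
    by_cases h : y ∈ Q k.toTube r
    · exact (smV_vf r3 y).congr_of_eventuallyEq ((oQ y h).mono fun z hz => congrArg _ (v1 z hz))
    · obtain ⟨p, hp, rfl⟩ := cover r1 (by linarith : r / 4 < r) h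
      exact sm_push (isOpen_Out _ _) (fun p hp => ld_ic r4 hp) S.smV v2 hp
  have sl : ContMDiff (𝓡 3) 𝓘(ℝ, ℝ) ∞ l := fun y => by
    by_cases h : y ∈ Q k.toTube r
    · exact contMDiffAt_const.congr_of_eventuallyEq ((oQ y h).mono l1)
    · obtain ⟨p, hp, rfl⟩ := cover r1 (by linarith : r / 4 < r) h
      exact contMDiffAt_of_comp (ld_ic r4 hp)
        ((contMDiffAt_const.mul (sψ p hp)).congr_of_eventuallyEq ((oO p hp).mono l2))
  refine ⟨v, l, sv, sl, fun p hp => v2 p (Out_anti (by linarith) hp), fun o v' ho sv' e => ?_⟩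
  have M4 : M ⊆ Out k.toTube (r / 4) := S.sub.trans (Out_anti (by linarith))
  refine trp_aux hr S G (fun z h h' => (hc z h h').1) ho sv'
    (fun y => (contMDiff_Phi k y).mul (csm_exp (sl y))) (fun y hy => ((e y ?_).trans (v1 y hy)).symm)
    (fun p hp h => (e _ (mt ((ic_inj r4).mem_image_iff M4 hp).1 h)).trans (v2 p hp))
    (fun y hy => by rw [l1 y hy]) fun p hp => ?_
  · rintro ⟨p, hp, rfl⟩
    exact not_otube (S.sub hp) ((ic_mem_Q r1 r1 (S.sub hp)).1 hy)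
  · rw [l2 p hp, Phi_ic k (by linarith) hp, An, mul_pow, two_mul, Circle.exp_add, sq (Circle.exp _)]

end Crest.Agent.X212.Lev39
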