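import Crest.Agent.X212.St29.Defs

/-!
# X212 / Lev39 (helper39): the data from which the smooth Seifert data are built
-/

set_option autoImplicit false
set_option linter.unusedSectionVars false

open Set Filter Topology Function
open scoped ContDiff Manifold
open Crest.GeometryTopology.DehnSurgery Crest.Agent.X212.Glue52 Crest.Agent.X212.Ext52
open Crest.Agent.X212.Sm10 Crest.Agent.X212.Hel40 Crest.Agent.X212.St29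

noncomputable section

namespace Crest.Agent.X212.Lev39

/-- weight `m`, radius `mu`, angle `An k ψ` and field `v` on `{1 / 2 < rho}` -/
structure Dat (k : KD) where
  m : E3 → ℝ
  mu : E3 → ℝ
  ψ : E3 → ℝ
  v : E3 → E3
  a : ℝ
  b : ℝ
  c : ℝ
  ab : a < b
  bc : b < c
  c4 : c ≤ 1 / 4
  smm : ContDiff ℝ ∞ m
  smu : ContDiff ℝ ∞ mu
  smv : ContDiff ℝ ∞ v
  smψ : ContDiffOn ℝ ∞ ψ {p | 1 / 2 < rho k.toTube p ∧ m p < c}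
  m1 : ∀ p, 1 / 2 < rho k.toTube p → rho k.toTube p ≤ 3 / 4 → m p = 1
  m0 : ∀ p, 5 / 2 ≤ rho k.toTube p → m p ≤ 1 / 4
  rad : ∀ (y u : Circle) (s : ℝ), 1 / 2 ≤ s → s ≤ 5 / 2 →
    0 < deriv (fun s : ℝ => mu (tb k.toTube (y, s * u))) s
  vm : ∀ p, 1 / 2 < rho k.toTube p → a ≤ m p → m p ≤ b → fderiv ℝ m p (v p) ≤ 0
  vmu : ∀ p, 1 / 2 < rho k.toTube p → a ≤ m p → m p ≤ 1 / 2 → 0 < fderiv ℝ mu p (v p)
  nn : ∀ p, 1 / 2 < rho k.toTube p → m p ≤ b → 0 ≤ dl (𝓡 3) (An k ψ) p (v p)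
  ps : ∀ p, 1 / 2 < rho k.toTube p → m p ≤ a → An k ψ p ≠ 1 → 0 < dl (𝓡 3) (An k ψ) p (v p)
  i1 : ∀ p, 1 / 2 < rho k.toTube p → m p ≤ a → An k ψ p = -1 →
    ∃ S : Set E3, IsPreconnected S ∧ p ∈ S ∧ (∃ q ∈ S, a < m q) ∧
      ∀ q ∈ S, 1 / 2 < rho k.toTube q ∧ m q < b ∧ An k ψ q ≠ 1
  i2 : ∀ (p : E3) (u : ℝ), 1 / 2 < rho k.toTube p → a < m p → m p < b → 0 < u →
    An k ψ p = Circle.exp u → ∃ S : Set (E3 × ℝ), IsPreconnected S ∧ (p, u) ∈ S ∧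
      (∃ q ∈ S, u + 1 ≤ q.2) ∧ ∀ q ∈ S, 1 / 2 < rho k.toTube q.1 ∧ a < m q.1 ∧ m q.1 < b ∧
        0 < q.2 ∧ An k ψ q.1 = Circle.exp q.2

/-- the plateau -/
def Dat.M {k : KD} (D : Dat k) : Set E3 :=
  {p | 1 / 2 < rho k.toTube p ∧ D.m p ≤ D.a ∧ An k D.ψ p = 1}

/-- SS -/
def SsStmt : Prop := ∀ (k : KD) (D : Dat k), ∃ V ψ, SS k (3 / 8) V ψ D.M ∧
  (∀ p, 1 / 2 < rho k.toTube p → D.m p ≤ 1 / 4 → V p = D.v p) ∧
  ∀ p, 1 / 2 < rho k.toTube p → D.m p ≤ D.a → ψ p = D.ψ p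

/-- SCALE: work with the tube `(u, z) ↦ τ (u, 64 z)` -/
def SclStmt : Prop := ∀ k : KD, ∃ k' : KD, (∀ r, Out k'.toTube r = Out k.toTube (64 * r)) ∧
  (∀ r p, r < rho k'.toTube p → p ∈ Out k.toTube (64 * r)) ∧
  k'.thick.core = k.thick.core ∧ (k'.thick.IsUnknot ↔ k.thick.IsUnknot) ∧
  ∀ r V ψ M, SS k' r V ψ M → SS k (64 * r) V ψ M

end Crest.Agent.X212.Lev39
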