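import Crest.Agent.X212.Hel40.Bas

/-!
# X212 / Lev39 (helper39): flows on a vector space, hitting a level of an angle

* `Fw V` : a complete flow of `V`;  `F.ag σ x t` : the integral of `σ` along the orbit;
* `F.Gam` : the points of the cyclic cover whose orbit hits the level `c` off `M`;
* `F.conn` : the level is connected if it lies in one component of `Gam`.
-/

set_option autoImplicit false
set_option linter.unusedSectionVars false

open Set Filter Topology Function
open scoped ContDiff Manifold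
open Crest.Agent.X212.Hel40 Crest.Agent.X212.Dr59 Crest.Agent.X212.Int54
open Crest.Agent.X212.Line51 (CSm)

noncomputable section

namespace Crest.Agent.X212.Lev39

theorem lin {g g' : ℝ → ℝ} {a b ε : ℝ} (hab : a ≤ b)
    (h : ∀ t ∈ Icc a b, HasDerivAt g (g' t) t ∧ ε ≤ g' t) : ε * (b - a) ≤ g b - g a :=
  (convex_Icc a b).mul_sub_le_image_sub_of_le_deriv
    (fun t ht => (h t ht).1.continuousAt.continuousWithinAt)
    (fun t ht => (h t (interior_subset ht)).1.differentiableAt.differentiableWithinAt)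
    (fun t ht => by rw [(h t (interior_subset ht)).1.deriv]; exact (h t (interior_subset ht)).2)
    a (left_mem_Icc.2 hab) b (right_mem_Icc.2 hab) hab

theorem strict_of {g : ℝ → ℝ} (hm : Monotone g) {t d : ℝ} (hd : HasDerivAt g d t) (ht : 0 < d) :
    (∀ s < t, g s < g t) ∧ ∀ s > t, g t < g s := by
  constructor
  · intro s hs
    refine lt_of_le_of_ne (hm hs.le) fun e => ?_
    have hc : g =ᶠ[𝓝[Iic t] t] fun _ => g t := by
      filter_upwards [Icc_mem_nhdsLE hs] with r hr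
      exact le_antisymm (hm hr.2) (e ▸ hm hr.1)
    have h1 := (hd.hasDerivWithinAt (s := Iic t)).congr_of_eventuallyEq hc.symm rfl
    exact ht.ne' ((uniqueDiffWithinAt_Iic t).eq_deriv _ h1 (hasDerivWithinAt_const _ _ _))
  · intro s hs
    refine lt_of_le_of_ne (hm hs.le) fun e => ?_
    have hc : g =ᶠ[𝓝[Ici t] t] fun _ => g t := by
      filter_upwards [Icc_mem_nhdsGE hs] with r hr
      exact le_antisymm (e ▸ hm hr.2) (hm hr.1)
    have h1 := (hd.hasDerivWithinAt (s := Ici t)).congr_of_eventuallyEq hc.symm rfl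
    exact ht.ne' ((uniqueDiffWithinAt_Ici t).eq_deriv _ h1 (hasDerivWithinAt_const _ _ _))

theorem exists_eps {X : Type*} [TopologicalSpace X] {K : Set X} (hK : IsCompact K) {f : X → ℝ}
    (hf : ContinuousOn f K) (h : ∀ x ∈ K, 0 < f x) : ∃ ε > 0, ∀ x ∈ K, ε ≤ f x := by
  rcases K.eq_empty_or_nonempty with rfl | hn
  · exact ⟨1, one_pos, fun _ h => h.elim⟩
  · obtain ⟨x, h1, h2⟩ := hK.exists_isMinOn hn hf
    exact ⟨f x, h x h1, fun y hy => h2 hy⟩

theorem join {X : Type*} [TopologicalSpace X] {Γ S : Set X} {b x y : X} (hS : IsPreconnected S)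
    (h : S ⊆ Γ) (hx : x ∈ S) (hy : y ∈ S) (k : x ∈ connectedComponentIn Γ b) :
    y ∈ connectedComponentIn Γ b :=
  connectedComponentIn_eq k ▸ hS.subset_connectedComponentIn hx h hy

variable {E : Type} [NormedAddCommGroup E] [NormedSpace ℝ E] [FiniteDimensional ℝ E]

/-- a complete flow -/
structure Fw (V : E → E) where
  φ : ℝ → E → E
  cont : Continuous fun p : ℝ × E => φ p.1 p.2
  zero : ∀ x, φ 0 x = x
  add : ∀ s t x, φ (s + t) x = φ s (φ t x)
  der : ∀ x t, HasDerivAt (fun s => φ s x) (V (φ t x)) t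

theorem exists_fw {V : E → E} (hV : ContDiff ℝ ∞ V) {K : Set E} (hK : IsCompact K)
    (h0 : ∀ x ∉ K, V x = 0) : Nonempty (Fw V) := by
  have : CompleteSpace E := FiniteDimensional.complete ℝ E
  have hv : Flo26.SmV 𝓘(ℝ, E) V := Flo26.smV_model.2 hV
  have hc : Flo26.Cpl (I := 𝓘(ℝ, E)) V := Flo26.complete_of_compact hv hK h0
  refine ⟨⟨Flo26.fl (I := 𝓘(ℝ, E)) V, (hc.contMDiff hv).continuous, Flo26.fl_zero hv, hc.add hv,
    fun x t => ?_⟩⟩
  have := Flo26.hasDerivAt_comp_fl hv (hc (t, x)) (f := id) mdifferentiableAt_id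
  rwa [mfderiv_id] at this

namespace Fw

variable {V : E → E} (F : Fw V) {σ f : E → ℝ} {x : E} {s t c : ℝ} {K Z M : Set E} {A : E → Circle}

theorem cont' {X : Type*} [TopologicalSpace X] {t : X → ℝ} {y : X → E} (ht : Continuous t)
    (hy : Continuous y) : Continuous fun x => F.φ (t x) (y x) := F.cont.comp (ht.prodMk hy)

theorem der_comp {G : Type*} [NormedAddCommGroup G] [NormedSpace ℝ G] {f : E → G}
    (hf : DifferentiableAt ℝ f (F.φ t x)) :
    HasDerivAt (fun s => f (F.φ s x)) (fderiv ℝ f (F.φ t x) (V (F.φ t x))) t :=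
  hf.hasFDerivAt.comp_hasDerivAt t (F.der x t)

theorem mono (h : ∀ x, DifferentiableAt ℝ f x ∧ 0 ≤ fderiv ℝ f x (V x)) (x : E) :
    Monotone fun t => f (F.φ t x) :=
  monotone_of_deriv_nonneg (fun _ => (F.der_comp (h _).1).differentiableAt) fun _ => by
    rw [(F.der_comp (h _).1).deriv]; exact (h _).2

/-- a compact set with a Lyapunov function is left in bounded time -/
theorem leave (hK : IsCompact K) (hf : ContDiff ℝ ∞ f) (hV : Continuous V)
    (h : ∀ x ∈ K, 0 < fderiv ℝ f x (V x)) :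
    ∃ T > 0, ∀ x a, ∃ t ∈ Icc a (a + T), F.φ t x ∉ K := by
  obtain ⟨ε, e0, h1⟩ := exists_eps hK (f := fun x => fderiv ℝ f x (V x))
    ((hf.continuous_fderiv (by simp)).clm_apply hV).continuousOn h
  obtain ⟨B, h2⟩ := hK.exists_bound_of_continuousOn hf.continuous.continuousOn
  have T0 : 0 < (2 * |B| + 1) / ε := by positivity
  refine ⟨_, T0, fun x a => ?_⟩
  by_contra! hn
  have h3 := lin (a := a) (b := a + (2 * |B| + 1) / ε) (by linarith) fun t ht =>
    ⟨F.der_comp (hf.differentiable (by simp) _), h1 _ (hn t ht)⟩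
  have h4 := abs_le.1 (h2 _ (hn a (left_mem_Icc.2 (by linarith))))
  have h5 := abs_le.1 (h2 _ (hn _ (right_mem_Icc.2 (by linarith))))
  rw [add_sub_cancel_left, mul_div_cancel₀ _ e0.ne'] at h3
  linarith [le_abs_self B]

/-- the integral of `σ` along the orbit -/
def ag (σ : E → ℝ) (x : E) (t : ℝ) : ℝ := ∫ s in (0 : ℝ)..t, σ (F.φ s x)

theorem ag_zero (x : E) : F.ag σ x 0 = 0 := intervalIntegral.integral_same

theorem continuous_ag (h : Continuous σ) : Continuous fun p : E × ℝ => F.ag σ p.1 p.2 :=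
  intervalIntegral.continuous_parametric_primitive_of_continuous (μ := MeasureTheory.volume)
    (f := fun (y : E) (s : ℝ) => σ (F.φ s y)) (h.comp (F.cont' continuous_snd continuous_fst))

theorem der_ag (h : Continuous σ) (x : E) (t : ℝ) : HasDerivAt (F.ag σ x) (σ (F.φ t x)) t :=
  (Continuous.integral_hasStrictDerivAt (f := fun s => σ (F.φ s x))
    (h.comp (F.cont' continuous_id continuous_const)) 0 t).hasDerivAt

theorem ag_add (h : Continuous σ) (x : E) (s t : ℝ) :
    F.ag σ x (s + t) = F.ag σ x t + F.ag σ (F.φ t x) s := by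
  have hc : Continuous fun s => σ (F.φ s x) := h.comp (F.cont' continuous_id continuous_const)
  rw [ag, ag, ag, ← intervalIntegral.integral_add_adjacent_intervals (b := t)
    (hc.intervalIntegrable _ _) (hc.intervalIntegrable _ _)]
  congr 1
  simp_rw [← F.add]
  rw [intervalIntegral.integral_comp_add_right (fun s => σ (F.φ s x)), zero_add]

theorem ang_fl (h : Continuous σ) (hA : ∀ t, CSm 𝓘(ℝ, E) A (F.φ t x) ∧
    σ (F.φ t x) = dl 𝓘(ℝ, E) A (F.φ t x) (V (F.φ t x))) (t : ℝ) :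
    A (F.φ t x) = A x * Circle.exp (F.ag σ x t) := by
  have hd : ∀ s, HasDerivAt (fun s => (A (F.φ s x) : ℂ) * Complex.exp (-(F.ag σ x s * Complex.I)))
      0 s := fun s => by
    have h1 := F.der_comp (f := fun z => (A z : ℂ)) (t := s) (x := x)
      (((Line51.contMDiff_coe _).comp _ (hA s).1).contDiffAt.differentiableAt (by simp))
    have h2 := (((F.der_ag h x s).ofReal_comp.mul_const Complex.I).neg).cexp
    have h3 : HasDerivAt (fun s => star (A (F.φ s x) : ℂ) * (A (F.φ s x) : ℂ)) 0 s := by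
      simp only [Complex.star_def, ← Complex.normSq_eq_conj_mul_self, Circle.normSq_coe]
      exact hasDerivAt_const _ _
    have h4 := congrArg Complex.re (h3.unique (h1.star.mul h1))
    refine (h1.mul h2).congr_deriv ?_
    have hr := (hA s).2.trans (dl_apply _)
    rw [mf, mfderiv_eq_fderiv] at hr
    have hz : (A (F.φ s x) : ℂ) * star (A (F.φ s x) : ℂ) = 1 := by
      rw [Complex.star_def, Complex.mul_conj, Circle.normSq_coe, Complex.ofReal_one]
    exact alg_fl hz h4 hr _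
  have h0 := is_const_of_deriv_eq_zero (fun s => (hd s).differentiableAt) (fun s => (hd s).deriv) t 0
  simp only [ag_zero, F.zero, Complex.ofReal_zero, zero_mul, neg_zero, Complex.exp_zero,
    mul_one] at h0
  ext
  rw [Circle.coe_mul, Circle.coe_exp, ← h0, mul_assoc, ← Complex.exp_add, neg_add_cancel,
    Complex.exp_zero, mul_one]

theorem hit_fwd (h : Continuous σ) (hK : IsCompact K) (hp : ∀ y ∈ K, 0 < σ y) (hs : s ≤ c)
    (hx : ∀ t ≥ 0, s + F.ag σ x t ≤ c → F.φ t x ∈ K) : ∃ t ≥ 0, s + F.ag σ x t = c := by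
  obtain ⟨ε, e0, h1⟩ := exists_eps hK h.continuousOn hp
  have hc : Continuous fun t => s + F.ag σ x t :=
    continuous_const.add (continuous_iff_continuousAt.2 fun t => (F.der_ag h x t).continuousAt)
  by_contra! hn
  have h2 : ∀ t ≥ 0, s + F.ag σ x t ≤ c := fun t ht => not_lt.1 fun k => by
    obtain ⟨r, h3, h4⟩ := intermediate_value_Icc ht hc.continuousOn
      (show c ∈ Icc _ _ from ⟨by rwa [ag_zero, add_zero], k.le⟩)
    exact hn r h3.1 h4
  have T0 : 0 ≤ (c - s + 1) / ε := div_nonneg (by linarith) e0.le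
  have h3 := lin T0 fun t ht => ⟨F.der_ag h x t, h1 _ (hx t ht.1 (h2 t ht.1))⟩
  rw [sub_zero, mul_div_cancel₀ _ e0.ne', ag_zero] at h3
  linarith [h2 _ T0]

theorem hit_bwd (h : Continuous σ) (hK : IsCompact K) (hp : ∀ y ∈ K, 0 < σ y) (hs : c ≤ s)
    (hx : ∀ t ≤ 0, c ≤ s + F.ag σ x t → F.φ t x ∈ K) : ∃ t ≤ 0, s + F.ag σ x t = c := by
  obtain ⟨ε, e0, h1⟩ := exists_eps hK h.continuousOn hp
  have hc : Continuous fun t => s + F.ag σ x t :=
    continuous_const.add (continuous_iff_continuousAt.2 fun t => (F.der_ag h x t).continuousAt)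
  by_contra! hn
  have h2 : ∀ t ≤ 0, c ≤ s + F.ag σ x t := fun t ht => not_lt.1 fun k => by
    obtain ⟨r, h3, h4⟩ := intermediate_value_Icc ht hc.continuousOn
      (show c ∈ Icc _ _ from ⟨k.le, by rwa [ag_zero, add_zero]⟩)
    exact hn r h3.2 h4
  have T0 : -((s - c + 1) / ε) ≤ 0 := neg_nonpos.2 (div_nonneg (by linarith) e0.le)
  have h3 := lin T0 fun t ht => ⟨F.der_ag h x t, h1 _ (hx t ht.2 (h2 t ht.2))⟩
  rw [zero_sub, neg_neg, mul_div_cancel₀ _ e0.ne', ag_zero] at h3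
  linarith [h2 _ T0]

/-- the hypotheses on the angle -/
structure Ag (σ : E → ℝ) (Z M : Set E) (A : E → Circle) : Prop where
  cont : Continuous σ
  nn : ∀ x, 0 ≤ σ x
  ps : ∀ x ∈ Z, x ∉ M → 0 < σ x
  inv : ∀ x ∈ Z, ∀ t, F.φ t x ∈ Z
  ang : ∀ x ∈ Z, ∀ t, A (F.φ t x) = A x * Circle.exp (F.ag σ x t)

/-- the points of the cover whose orbit hits the level `c` off `M` -/
def Gam (σ : E → ℝ) (Z M : Set E) (A : E → Circle) (c : ℝ) : Set (E × ℝ) :=
  {q | q.1 ∈ Z ∧ A q.1 = Circle.exp q.2 ∧ ∃ t, q.2 + F.ag σ q.1 t = c ∧ F.φ t q.1 ∉ M}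

variable {F}

theorem Ag.mono (h : F.Ag σ Z M A) (x : E) : Monotone (F.ag σ x) :=
  monotone_of_deriv_nonneg (fun t => (F.der_ag h.cont x t).differentiableAt) fun t => by
    rw [(F.der_ag h.cont x t).deriv]; exact h.nn _

theorem Ag.lift (h : F.Ag σ Z M A) (hx : x ∈ Z) (e : A x = Circle.exp s) (t : ℝ) :
    A (F.φ t x) = Circle.exp (s + F.ag σ x t) := by rw [h.ang x hx, e, Circle.exp_add]

theorem Ag.orb (h : F.Ag σ Z M A) (hx : (x, s) ∈ F.Gam σ Z M A c) (t : ℝ) :
    (F.φ t x, s + F.ag σ x t) ∈ F.Gam σ Z M A c := by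
  obtain ⟨h1, h2, r, h3, h4⟩ := hx
  refine ⟨h.inv x h1 t, h.lift h1 h2 t, r - t, ?_, ?_⟩
  · rw [← h3, add_assoc, ← F.ag_add h.cont, sub_add_cancel]
  · rwa [← F.add, sub_add_cancel]

theorem Ag.of_orb (h : F.Ag σ Z M A) (hx : x ∈ Z) (e : A x = Circle.exp s)
    (k : (F.φ t x, s + F.ag σ x t) ∈ F.Gam σ Z M A c) : (x, s) ∈ F.Gam σ Z M A c := by
  obtain ⟨-, -, r, h3, h4⟩ := k
  exact ⟨hx, e, r + t, by rw [← h3, F.ag_add h.cont, add_assoc], by rwa [F.add]⟩

theorem Ag.back (h : F.Ag σ Z M A) {b : E × ℝ} (hx : (x, s) ∈ F.Gam σ Z M A c)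
    (k : (F.φ t x, s + F.ag σ x t) ∈ connectedComponentIn (F.Gam σ Z M A c) b) :
    (x, s) ∈ connectedComponentIn (F.Gam σ Z M A c) b :=
  join (S := range fun t => (F.φ t x, s + F.ag σ x t))
    (isPreconnected_range ((F.cont' continuous_id continuous_const).prodMk (continuous_const.add
      ((F.continuous_ag h.cont).comp (continuous_const.prodMk continuous_id)))))
    (range_subset_iff.2 (h.orb hx)) ⟨t, rfl⟩ ⟨0, by simp only [F.zero, ag_zero, add_zero]⟩ k

/-- strictly between two integer levels -/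
theorem Ag.mid (h : F.Ag σ Z M A) (hK : IsCompact K) (hA : ContinuousOn A K) (h1 : Z ⊆ K)
    (h2 : ∀ y ∈ K, A y ≠ 1 → 0 < σ y) (hM : ∀ y ∈ M, A y = 1) (hc : c ∈ Ioo 0 (2 * Real.pi))
    (hs : s ∈ Ioo 0 (2 * Real.pi)) (hx : x ∈ Z) (e : A x = Circle.exp s) :
    (x, s) ∈ F.Gam σ Z M A c := by
  have ne : ∀ r ∈ Ioo 0 (2 * Real.pi), Circle.exp r ≠ 1 := fun r hr k => by
    obtain ⟨n, hn⟩ := Circle.exp_eq_one.1 k
    have a : (0 : ℝ) < n := (mul_pos_iff_of_pos_right Real.two_pi_pos).1 (hn ▸ hr.1)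
    have b : (n : ℝ) < 1 := lt_of_mul_lt_mul_right (by rw [one_mul, ← hn]; exact hr.2)
      Real.two_pi_pos.le
    have a' : 0 < n := by exact_mod_cast a
    have b' : n < 1 := by exact_mod_cast b
    omega
  have hK' : IsCompact (K ∩ A ⁻¹' (Circle.exp '' uIcc s c)) := hK.of_isClosed_subset
    (hA.preimage_isClosed_of_isClosed hK.isClosed
      (isCompact_uIcc.image Circle.exp.continuous).isClosed) inter_subset_left
  have hp : ∀ y ∈ K ∩ A ⁻¹' (Circle.exp '' uIcc s c), 0 < σ y := fun y ⟨a, r, b, d⟩ =>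
    h2 y a (d ▸ ne r (ordConnected_Ioo.uIcc_subset hs hc b))
  have fin : ∀ t, s + F.ag σ x t = c → (x, s) ∈ F.Gam σ Z M A c := fun t ht =>
    ⟨hx, e, t, ht, fun k => ne c hc (ht ▸ (h.lift hx e t).symm.trans (hM _ k))⟩
  rcases le_total s c with l | l
  · obtain ⟨t, -, ht⟩ := F.hit_fwd (x := x) h.cont hK' hp l fun t ht k => ⟨h1 (h.inv x hx t), _,
      mem_uIcc_of_le (by linarith [h.mono x ht, F.ag_zero (σ := σ) x]) k, (h.lift hx e t).symm⟩
    exact fin t ht
  · obtain ⟨t, -, ht⟩ := F.hit_bwd (x := x) h.cont hK' hp l fun t ht k => ⟨h1 (h.inv x hx t), _,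
      mem_uIcc_of_ge k (by linarith [h.mono x ht, F.ag_zero (σ := σ) x]), (h.lift hx e t).symm⟩
    exact fin t ht

/-- **the level is a retract of `Gam`** -/
theorem Ag.conn (h : F.Ag σ Z M A) {b : E × ℝ} (hb : ∀ p ∈ Z, A p = Circle.exp c → p ∉ M →
    (p, c) ∈ connectedComponentIn (F.Gam σ Z M A c) b) :
    IsPreconnected {p | p ∈ Z ∧ A p = Circle.exp c ∧ p ∉ M} := by
  have cr : ∀ (q : E × ℝ) t, q.1 ∈ Z → q.2 + F.ag σ q.1 t = c → F.φ t q.1 ∉ M →
      Crs (fun (q : E × ℝ) t => q.2 + F.ag σ q.1 t - c) q t := fun q t h1 h2 h3 => by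
    have := strict_of (h.mono q.1) (F.der_ag h.cont q.1 t) (h.ps _ (h.inv _ h1 t) h3)
    exact ⟨fun s hs => by linarith [this.1 s hs], fun s hs => by linarith [this.2 s hs]⟩
  have ex : ∀ q : E × ℝ, ∃ t, q ∈ F.Gam σ Z M A c → q.2 + F.ag σ q.1 t = c ∧ F.φ t q.1 ∉ M :=
    fun q => (em (q ∈ F.Gam σ Z M A c)).elim (fun k => k.2.2.imp fun _ k _ => k)
      fun k => ⟨0, fun k' => absurd k' k⟩
  choose τ hτ using ex
  have hc : ContinuousOn τ (F.Gam σ Z M A c) := continuousOn_crs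
    (fun t => ((continuous_snd.add ((F.continuous_ag h.cont).comp
      (continuous_fst.prodMk continuous_const))).sub continuous_const).continuousOn)
    fun q hq => cr q _ hq.1 (hτ q hq).1 (hτ q hq).2
  have := (isPreconnected_connectedComponentIn (x := b)).image (fun q => F.φ (τ q) q.1)
    ((F.cont.comp_continuousOn (hc.prodMk continuousOn_fst)).mono (connectedComponentIn_subset _ _))
  convert this using 1
  refine Subset.antisymm (fun p hp => ⟨(p, c), hb p hp.1 hp.2.1 hp.2.2, ?_⟩) ?_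
  · have k := connectedComponentIn_subset _ _ (hb p hp.1 hp.2.1 hp.2.2)
    have e : τ (p, c) = 0 := (cr _ _ hp.1 (hτ _ k).1 (hτ _ k).2).unique
      (cr (p, c) 0 hp.1 (by rw [ag_zero, add_zero]) (by rw [F.zero]; exact hp.2.2))
    simp only [e, F.zero]
  · rintro _ ⟨q, hq, rfl⟩
    have k := connectedComponentIn_subset _ _ hq
    exact ⟨h.inv _ k.1 _, (h.lift k.1 k.2.1 _).trans (by rw [(hτ q k).1]), (hτ q k).2⟩

end Fw

end Crest.Agent.X212.Lev39
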