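import Crest.Agent.X212.Lev39.Tub
import Crest.Agent.X212.Lev39.Fw

/-!
# X212 / Lev39 (helper39): the field, the Lyapunov function and the angle built from `Dat`
-/

set_option autoImplicit false
set_option linter.unusedSectionVars false

open Set Filter Topology Function
open scoped ContDiff Manifold
open Crest.GeometryTopology.DehnSurgery Crest.Agent.X212.Glue52 Crest.Agent.X212.Ext52
open Crest.Agent.X212.Sm10 Crest.Agent.X212.Hel40 Crest.Agent.X212.St29

noncomputable section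

namespace Crest.Agent.X212.Lev39

theorem cvx {β x y : ℝ} (h0 : 0 ≤ β) (h1 : β ≤ 1) (hx : β ≠ 0 → 0 < x) (hy : β ≠ 1 → 0 < y) :
    0 < β * x + (1 - β) * y := by
  rcases h0.eq_or_lt with rfl | k
  · simpa using hy zero_ne_one
  rcases h1.eq_or_lt with rfl | l
  · simpa using hx one_ne_zero
  · exact add_pos (mul_pos k (hx k.ne')) (mul_pos (sub_pos.2 l) (hy l.ne))

theorem mul_nn {x y : ℝ} (hx : 0 ≤ x) (h : x ≠ 0 → 0 ≤ y) : 0 ≤ x * y :=
  (em (x = 0)).elim (fun e => by rw [e, zero_mul]) fun e => mul_nonneg hx (h e)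

section W

variable {t : Tube} {p : E3}

/-- the speed in the radial direction -/
def kp (t : Tube) : E3 → ℝ := sr t (3 / 8) (1 / 2)

/-- the speed of rotation -/
def lm (t : Tube) (p : E3) : ℝ := sr t (1 / 32) (3 / 32) p - kp t p

/-- the field near the tube -/
def WW (t : Tube) (p : E3) : E3 := lm t p • Ax t p Complex.I + kp t p • Ax t p 1

theorem contDiff_kp : ContDiff ℝ ∞ (kp t) := contDiff_sr (by norm_num) (by norm_num) (by norm_num)

theorem contDiff_lm : ContDiff ℝ ∞ (lm t) :=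
  (contDiff_sr (by norm_num) (by norm_num) (by norm_num)).sub contDiff_kp

theorem kp_nonneg : 0 ≤ kp t p := st_nonneg _ _ _
theorem kp_pos : 0 < kp t p ↔ 3 / 8 < rho t p := st_pos (by norm_num)
theorem kp_zero (h : rho t p ≤ 3 / 8) : kp t p = 0 := (st_zero (by norm_num)).2 h

theorem lm_nonneg : 0 ≤ lm t p := by
  rcases le_or_gt (rho t p) (3 / 8) with h | h
  · rw [lm, kp_zero h, sub_zero]; exact st_nonneg _ _ _
  · rw [lm, sr, (st_one (by norm_num)).2 (by linarith), sub_nonneg]; exact st_le _ _ _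

theorem lm_one (h : 3 / 32 ≤ rho t p) (h' : rho t p ≤ 3 / 8) : lm t p = 1 := by
  rw [lm, kp_zero h', sub_zero, sr, (st_one (by norm_num)).2 h]

theorem lm_zero (h : 1 / 2 ≤ rho t p) : lm t p = 0 := by
  rw [lm, kp, sr, sr, (st_one (by norm_num)).2 h, (st_one (by norm_num)).2 (by linarith), sub_self]

theorem WW_zero (h : rho t p ≤ 1 / 32) : WW t p = 0 := by
  rw [WW, lm, kp_zero (by linarith), sr, (st_zero (by norm_num)).2 h]
  simp

theorem contDiffAt_WW (h : rho t p < 4) : ContDiffAt ℝ ∞ (WW t) p := by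
  rcases lt_or_ge (rho t p) (1 / 32) with k | k
  · exact contDiffAt_const.congr_of_eventuallyEq ((ev_lt k).mono fun q hq => WW_zero hq.le)
  · obtain ⟨z, h1, -, rfl⟩ := exists_tb (by linarith) h
    exact (contDiff_lm.contDiffAt.smul ((sm_Ax h1).clm_apply contDiffAt_const)).add
      (contDiff_kp.contDiffAt.smul ((sm_Ax h1).clm_apply contDiffAt_const))

theorem rho_WW (h : rho t p < 4) : fderiv ℝ (rho t) p (WW t p) = kp t p * rho t p := by
  rcases (rho_nonneg t p).eq_or_lt with k | k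
  · rw [WW_zero (by linarith), ← k, map_zero, mul_zero]
  · rw [WW, map_add, map_smul, map_smul, rho_rot k h, rho_rad k h, smul_zero, zero_add, smul_eq_mul]

theorem th_WW (k : KD) (h0 : 0 < rho k.toTube p) (h : rho k.toTube p < 4) :
    dl (𝓡 3) (th k) p (WW k.toTube p) = lm k.toTube p := by
  rw [WW, map_add, map_smul, map_smul, th_rot k h0 h, th_rad k h0 h, smul_zero, add_zero, smul_eq_mul,
    mul_one]

end W

namespace Dat

variable {k : KD} (D : Dat k) {p : E3} {C N : ℝ}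

/-- the weight, equal to one inside -/
def mh (p : E3) : ℝ := 1 - sr k.toTube (9 / 16) (11 / 16) p * (1 - D.m p)

theorem contDiff_mh : ContDiff ℝ ∞ D.mh := contDiff_const.sub
  ((contDiff_sr (by norm_num) (by norm_num) (by norm_num)).mul (contDiff_const.sub D.smm))

theorem mh_eq (h : 1 / 2 < rho k.toTube p) : D.mh p = D.m p := by
  rcases le_or_gt (rho k.toTube p) (3 / 4) with l | l
  · rw [mh, D.m1 p h l]; ring
  · rw [mh, sr, (st_one (by norm_num)).2 (by linarith)]; ring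

theorem mh_one (h : rho k.toTube p ≤ 3 / 4) : D.mh p = 1 := by
  rcases le_or_gt (rho k.toTube p) (1 / 2) with l | l
  · rw [mh, sr, (st_zero (by norm_num)).2 (by linarith)]; ring
  · rw [D.mh_eq l, D.m1 p l h]

theorem far (h : D.mh p < 1) : 3 / 4 < rho k.toTube p := not_le.1 fun l => h.ne (D.mh_one l)

theorem far' (h : D.mh p < 1) : 1 / 2 < rho k.toTube p := by linarith [D.far h]

theorem near (h : 1 / 4 < D.mh p) : rho k.toTube p < 5 / 2 := not_le.1 fun l => by
  linarith [D.m0 p l, D.mh_eq (p := p) (by linarith)]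

theorem b4 : D.b < 1 / 4 := D.bc.trans_le D.c4

theorem mem_M : p ∈ D.M ↔ D.mh p ≤ D.a ∧ An k D.ψ p = 1 :=
  ⟨fun h => ⟨D.mh_eq h.1 ▸ h.2.1, h.2.2⟩, fun h =>
    have := D.far' (p := p) (by linarith [D.ab, D.b4, h.1])
    ⟨this, D.mh_eq this ▸ h.1, h.2⟩⟩

theorem ψ_at (h : D.mh p < D.c) : ContDiffAt ℝ ∞ D.ψ p := by
  have := D.far' (p := p) (by linarith [D.c4])
  exact D.smψ.contDiffAt (inter_mem (ev_gt this) (D.smm.continuous.continuousAt.eventually
    (gt_mem_nhds (D.mh_eq this ▸ h))))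

theorem isCompact_mh {S : Set ℝ} (hS : IsClosed S) {r : ℝ} (hr : 0 < r) :
    IsCompact (rho k.toTube ⁻¹' Ici r ∩ D.mh ⁻¹' S) :=
  (isCompact_far _ hr).inter_right (hS.preimage D.contDiff_mh.continuous)

/-- the field -/
def V (p : E3) : E3 :=
  st (1 / 4) (1 / 2) (D.mh p) • WW k.toTube p + (1 - st (1 / 4) (1 / 2) (D.mh p)) • D.v p

theorem V_v (h : D.mh p ≤ 1 / 4) : D.V p = D.v p := by
  rw [V, (st_zero (by norm_num)).2 h]; simp

theorem V_W (h : rho k.toTube p ≤ 3 / 4) : D.V p = WW k.toTube p := by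
  rw [V, D.mh_one h, (st_one (by norm_num)).2 (by norm_num)]; simp

theorem contDiff_V : ContDiff ℝ ∞ D.V := by
  have h := (contDiff_st (1 / 4) (1 / 2)).comp D.contDiff_mh
  refine contDiff_iff_contDiffAt.2 fun p => ?_
  rcases lt_or_ge (rho k.toTube p) 4 with l | l
  · exact (h.contDiffAt.smul (contDiffAt_WW l)).add ((contDiff_const.sub h).smul D.smv).contDiffAt
  · exact D.smv.contDiffAt.congr_of_eventuallyEq ((ev_gt (show 5 / 2 < _ by linarith)).mono
      fun q hq => D.V_v (not_lt.1 fun n => (D.near n).not_gt hq))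

theorem V_zero (h : rho k.toTube p ≤ 1 / 32) : D.V p = 0 := by rw [D.V_W (by linarith), WW_zero h]

theorem sr_V {a b : ℝ} (h0 : 0 < a) (h : a < b) (h1 : b ≤ 3 / 4) (p : E3) :
    fderiv ℝ (sr k.toTube a b) p (D.V p) =
      deriv (st a b) (rho k.toTube p) * (kp k.toTube p * rho k.toTube p) := by
  rw [fderiv_sr h0 h (by linarith)]
  by_cases e : deriv (st a b) (rho k.toTube p) = 0
  · rw [e, zero_mul, zero_mul]
  · have := (deriv_st_ne h e).2
    rw [D.V_W (by linarith), rho_WW (by linarith)]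

/-- the Lyapunov function -/
def L (C : ℝ) (p : E3) : ℝ := sr k.toTube (1 / 2) (5 / 8) p * (D.mu p + C) +
  (sr k.toTube (3 / 8) (3 / 4) p - (2 * C + 2))

theorem contDiff_L (C : ℝ) : ContDiff ℝ ∞ (D.L C) :=
  ((contDiff_sr (by norm_num) (by norm_num) (by norm_num)).mul (D.smu.add contDiff_const)).add
    ((contDiff_sr (by norm_num) (by norm_num) (by norm_num)).sub contDiff_const)

theorem L_in (h : rho k.toTube p ≤ 1 / 2) :
    D.L C p = st (3 / 8) (3 / 4) (rho k.toTube p) - (2 * C + 2) := by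
  rw [L, sr, (st_zero (by norm_num)).2 h, zero_mul, zero_add, sr]

theorem fderiv_L (C : ℝ) (p w : E3) : fderiv ℝ (D.L C) p w =
    sr k.toTube (1 / 2) (5 / 8) p * fderiv ℝ D.mu p w +
      (D.mu p + C) * (deriv (st (1 / 2) (5 / 8)) (rho k.toTube p) * fderiv ℝ (rho k.toTube) p w) +
      deriv (st (3 / 8) (3 / 4)) (rho k.toTube p) * fderiv ℝ (rho k.toTube) p w := by
  have d := ((((contDiff_sr (t := k.toTube) (a := 1 / 2) (b := 5 / 8) (by norm_num) (by norm_num)
    (by norm_num)).differentiable (by simp) p).hasFDerivAt.mul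
    ((D.smu.differentiable (by simp) p).hasFDerivAt.add_const C)).add
    (((contDiff_sr (t := k.toTube) (a := 3 / 8) (b := 3 / 4) (by norm_num) (by norm_num)
      (by norm_num)).differentiable (by simp) p).hasFDerivAt.sub_const (2 * C + 2))).fderiv
  rw [show fderiv ℝ (D.L C) p = _ from d, ← fderiv_sr (by norm_num) (by norm_num) (by norm_num),
    ← fderiv_sr (by norm_num) (by norm_num) (by norm_num)]
  rfl

variable {D}

theorem L_W (hC : ∀ p, 1 / 2 ≤ rho k.toTube p → |D.mu p| ≤ C) (h : rho k.toTube p ≤ 5 / 2) :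
    0 ≤ fderiv ℝ (D.L C) p (WW k.toTube p) ∧
      (3 / 8 < rho k.toTube p → 0 < fderiv ℝ (D.L C) p (WW k.toTube p)) := by
  have r0 : 0 ≤ kp k.toTube p * rho k.toTube p := mul_nonneg kp_nonneg (rho_nonneg _ _)
  have h1 : 1 / 2 < rho k.toTube p → 0 < fderiv ℝ D.mu p (WW k.toTube p) := fun l => by
    rw [WW, lm_zero l.le, zero_smul, zero_add, map_smul]
    exact mul_pos (kp_pos.2 (by linarith)) (f_rad (D.smu.differentiable (by simp)) (by linarith)
      (by linarith) fun y u => D.rad y u _ l.le h)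
  have a1 : 0 ≤ sr k.toTube (1 / 2) (5 / 8) p * fderiv ℝ D.mu p (WW k.toTube p) :=
    mul_nn (st_nonneg _ _ _) fun e => (h1 (not_le.1 (mt (st_zero (by norm_num)).2 e))).le
  have a2 : 0 ≤ (D.mu p + C) * (deriv (st (1 / 2) (5 / 8)) (rho k.toTube p) *
      (kp k.toTube p * rho k.toTube p)) := by
    rw [mul_left_comm]
    exact mul_nn (deriv_st_nonneg (by norm_num) _) fun e => mul_nonneg
      (by linarith [(abs_le.1 (hC p (deriv_st_ne (by norm_num) e).1.le)).1]) r0
  have a3 := mul_nonneg (deriv_st_nonneg (a := 3 / 8) (b := 3 / 4) (by norm_num) (rho k.toTube p)) r0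
  rw [fderiv_L, rho_WW (by linarith)]
  refine ⟨by linarith, fun l => ?_⟩
  rcases lt_or_ge (rho k.toTube p) (3 / 4) with n | n
  · linarith [mul_pos (deriv_st_pos l n) (mul_pos (kp_pos.2 l) (by linarith : 0 < rho k.toTube p))]
  · rw [sr, (st_one (by norm_num)).2 (by linarith)]
    linarith [h1 (by linarith)]

theorem L_V (hC : ∀ p, 1 / 2 ≤ rho k.toTube p → |D.mu p| ≤ C) (h : 3 / 8 < rho k.toTube p)
    (h' : D.a ≤ D.mh p) : 0 < fderiv ℝ (D.L C) p (D.V p) := by
  rw [V, map_add, map_smul, map_smul]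
  refine cvx (st_nonneg _ _ _) (st_le _ _ _) (fun e => (L_W hC (D.near (not_le.1
    (mt (st_zero (by norm_num)).2 e))).le).2 h) fun e => ?_
  have h1 : D.mh p < 1 / 2 := not_le.1 (mt (st_one (by norm_num)).2 e)
  have h2 := D.far (p := p) (by linarith)
  have h3 := D.mh_eq (p := p) (by linarith)
  rw [fderiv_L, sr, (st_one (by norm_num)).2 (by linarith),
    show deriv (st (1 / 2) (5 / 8)) _ = 0 from by_contra fun n => by
      linarith [(deriv_st_ne (by norm_num) n).2],
    show deriv (st (3 / 8) (3 / 4)) _ = 0 from by_contra fun n => by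
      linarith [(deriv_st_ne (by norm_num) n).2]]
  simpa using D.vmu p (by linarith) (h3 ▸ h') (by linarith)

theorem L_le (hC : ∀ p, 1 / 2 ≤ rho k.toTube p → |D.mu p| ≤ C) (h : 1 / 2 ≤ rho k.toTube p) :
    -(2 * C + 2) ≤ D.L C p ∧ D.L C p ≤ -1 := by
  have h1 := abs_le.1 (hC p h)
  have h2 : 0 ≤ sr k.toTube (1 / 2) (5 / 8) p := st_nonneg _ _ _
  have h3 : sr k.toTube (1 / 2) (5 / 8) p ≤ 1 := st_le _ _ _
  have h4 : 0 ≤ sr k.toTube (3 / 8) (3 / 4) p := st_nonneg _ _ _
  have h5 : sr k.toTube (3 / 8) (3 / 4) p ≤ 1 := st_le _ _ _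
  rw [L]
  constructor <;> nlinarith [h1.1, h1.2]

variable (D)

/-- the step at the boundary of `{m ≤ a}` -/
def β (p : E3) : ℝ := st D.a D.b (D.mh p)

theorem contDiff_β : ContDiff ℝ ∞ D.β := (contDiff_st _ _).comp D.contDiff_mh

theorem β_V (p : E3) : fderiv ℝ D.β p (D.V p) ≤ 0 := by
  rw [show fderiv ℝ D.β p _ = _ from fderiv_st (D.contDiff_mh.differentiable (by simp) p) _ _ _,
    ← neg_nonneg, ← mul_neg]
  refine mul_nn (deriv_st_nonneg D.ab _) fun e => ?_
  have h := deriv_st_ne D.ab e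
  have h1 := D.far' (p := p) (by linarith [D.b4, h.2])
  rw [D.V_v (by linarith [D.b4, h.2]), neg_nonneg,
    EventuallyEq.fderiv_eq ((ev_gt h1).mono fun q hq => D.mh_eq hq)]
  exact D.vm p h1 (D.mh_eq h1 ▸ h.1.le) (D.mh_eq h1 ▸ h.2.le)

/-- the new correction of the angle -/
def ψ' (C N : ℝ) (p : E3) : ℝ := (1 - D.β p) * D.ψ p + D.β p * (N * D.L C p)

theorem ψ'_one (h : D.b ≤ D.mh p) : D.ψ' C N p = N * D.L C p := by
  rw [ψ', β, (st_one D.ab).2 h]; ring

theorem ψ'_zero (h : D.mh p ≤ D.a) : D.ψ' C N p = D.ψ p := by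
  rw [ψ', β, (st_zero D.ab).2 h]; ring

theorem ψ'_ev (h : D.b < D.mh p) : D.ψ' C N =ᶠ[𝓝 p] fun q => N * D.L C q :=
  (D.contDiff_mh.continuous.continuousAt.eventually (lt_mem_nhds h)).mono fun _ hq => D.ψ'_one hq.le

theorem contDiff_ψ' (C N : ℝ) : ContDiff ℝ ∞ (D.ψ' C N) := contDiff_iff_contDiffAt.2 fun p => by
  rcases lt_or_ge (D.mh p) D.c with l | l
  · exact ((contDiff_const.sub D.contDiff_β).contDiffAt.mul (D.ψ_at l)).add
      (D.contDiff_β.mul (contDiff_const.mul (D.contDiff_L C))).contDiffAt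
  · exact (contDiff_const.mul (D.contDiff_L C)).contDiffAt.congr_of_eventuallyEq
      (D.ψ'_ev (D.bc.trans_le l))

/-- the rate of the new angle -/
def σ (C N : ℝ) (p : E3) : ℝ := dl (𝓡 3) (An k (D.ψ' C N)) p (D.V p)

theorem σ_eq (h : 0 < rho k.toTube p) :
    D.σ C N p = dl (𝓡 3) (th k) p (D.V p) + fderiv ℝ (D.ψ' C N) p (D.V p) :=
  dl_An k h (D.contDiff_ψ' C N).contDiffAt _

theorem th_cont (h : 0 < rho k.toTube p) :
    ContinuousAt (fun p => dl (𝓡 3) (th k) p (D.V p)) p := by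
  simp only [dl_th]
  exact Complex.continuous_im.continuousAt.comp ((contDiffAt_th k h).continuousAt.star.mul
    (((contDiffAt_th k h).continuousAt_fderiv (by simp)).clm_apply D.contDiff_V.continuous.continuousAt))

theorem continuous_σ (C N : ℝ) : Continuous (D.σ C N) := continuous_iff_continuousAt.2 fun p => by
  rcases lt_or_ge (rho k.toTube p) (1 / 32) with l | l
  · exact (continuousAt_const (y := (0 : ℝ))).congr ((ev_lt l).mono fun q hq => by
      rw [σ, D.V_zero hq.le, map_zero])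
  · have h : 0 < rho k.toTube p := by linarith
    exact ((D.th_cont h).add (((D.contDiff_ψ' C N).continuous_fderiv (by simp)).clm_apply
      D.contDiff_V.continuous).continuousAt).congr ((ev_gt h).mono fun q hq => (D.σ_eq hq).symm)

theorem σ_out (h0 : 0 < rho k.toTube p) (h : D.b < D.mh p) :
    D.σ C N p = dl (𝓡 3) (th k) p (D.V p) + N * fderiv ℝ (D.L C) p (D.V p) := by
  rw [D.σ_eq h0, (D.ψ'_ev h).fderiv_eq,
    fderiv_const_mul ((D.contDiff_L C).differentiable (by simp) p)]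
  rfl

theorem σ_in (h : D.mh p < D.c) : D.σ C N p = (1 - D.β p) * dl (𝓡 3) (An k D.ψ) p (D.V p) +
    D.β p * (dl (𝓡 3) (th k) p (D.V p) + N * fderiv ℝ (D.L C) p (D.V p)) +
    -fderiv ℝ D.β p (D.V p) * (D.ψ p - N * D.L C p) := by
  have h0 : 0 < rho k.toTube p := by linarith [D.far (p := p) (by linarith [D.c4])]
  have b := (D.contDiff_β.differentiable (by simp) p).hasFDerivAt
  have d := (((b.const_sub 1).mul ((D.ψ_at h).differentiableAt (by simp)).hasFDerivAt).add
    (b.mul (((D.contDiff_L C).differentiable (by simp) p).hasFDerivAt.const_mul N))).fderiv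
  rw [D.σ_eq h0, dl_An k h0 (D.ψ_at h), show fderiv ℝ (D.ψ' C N) p = _ from d]
  simp only [add_apply, smul_apply, neg_apply, smul_eq_mul]
  ring

/-- the constants are large -/
structure Par (C N : ℝ) : Prop where
  hC : ∀ p, 1 / 2 ≤ rho k.toTube p → |D.mu p| ≤ C
  N0 : 0 < N
  hψ : ∀ p, D.mh p ≤ D.b → |D.ψ p| < N
  hN : ∀ p, 1 / 2 ≤ rho k.toTube p → D.a ≤ D.mh p →
    0 < dl (𝓡 3) (th k) p (D.V p) + N * fderiv ℝ (D.L C) p (D.V p)

theorem exists_par : ∃ C N, D.Par C N := by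
  obtain ⟨C, hC⟩ := (isCompact_far k.toTube one_half_pos).exists_bound_of_continuousOn
    D.smu.continuous.continuousOn
  have K := D.isCompact_mh (isClosed_Ici (a := D.a)) one_half_pos
  obtain ⟨ε, e0, h1⟩ := exists_eps K (f := fun p => fderiv ℝ (D.L C) p (D.V p))
    (((D.contDiff_L C).continuous_fderiv (by simp)).clm_apply D.contDiff_V.continuous).continuousOn
    fun p hp => L_V hC (lt_of_lt_of_le (by norm_num) hp.1) hp.2
  obtain ⟨B, h2⟩ := K.exists_bound_of_continuousOn fun p hp =>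
    (D.th_cont (one_half_pos.trans_le hp.1)).continuousWithinAt
  obtain ⟨B', h3⟩ := (D.isCompact_mh (isClosed_Iic (a := D.b)) one_half_pos).exists_bound_of_continuousOn
    fun p hp => (D.ψ_at (D.bc.trans_le' hp.2)).continuousAt.continuousWithinAt
  have b0 : 0 ≤ |B| / ε := by positivity
  refine ⟨C, |B'| + |B| / ε + 1, hC, by positivity, fun p hp => ?_, fun p a b => ?_⟩
  · have := h3 p ⟨(D.far' (by linarith [D.b4])).le, hp⟩
    linarith [le_abs_self B', Real.norm_eq_abs (D.ψ p)]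
  · have k1 := h1 p ⟨a, b⟩
    have k2 := (abs_le.1 (h2 p ⟨a, b⟩)).1
    have k3 := mul_le_mul_of_nonneg_left k1 (show 0 ≤ |B'| + |B| / ε + 1 by positivity)
    have k4 : |B| / ε * ε = |B| := div_mul_cancel₀ _ e0.ne'
    nlinarith [le_abs_self B, abs_nonneg B']

variable {D}

theorem Par.bb (P : D.Par C N) (h : D.mh p ≤ D.b) : 0 < D.ψ p - N * D.L C p ∧
    D.ψ p - N * D.L C p ≤ N + N * (2 * C + 2) := by
  have h1 := L_le P.hC (D.far' (p := p) (by linarith [D.b4])).le
  have h2 := abs_lt.1 (P.hψ p h)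
  constructor <;> nlinarith [P.N0, h1.1, h1.2]

theorem Par.σ_pos (P : D.Par C N) (p : E3) :
    0 ≤ D.σ C N p ∧ (3 / 32 < rho k.toTube p → p ∉ D.M → 0 < D.σ C N p) := by
  rcases (rho_nonneg k.toTube p).eq_or_lt with h0 | h0
  · exact ⟨by rw [σ, D.V_zero (by linarith), map_zero], fun h => by linarith⟩
  rcases lt_or_ge D.b (D.mh p) with h | h
  · rw [D.σ_out h0 h]
    rcases le_or_gt (1 / 2) (rho k.toTube p) with l | l
    · have := P.hN p l (by linarith [D.ab])
      exact ⟨this.le, fun _ _ => this⟩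
    · rw [D.V_W (by linarith), th_WW k h0 (by linarith)]
      have h1 := L_W P.hC (p := p) (by linarith)
      have h2 := mul_nonneg P.N0.le h1.1
      have h3 : 0 ≤ lm k.toTube p := lm_nonneg
      refine ⟨by linarith, fun a _ => ?_⟩
      rcases le_or_gt (rho k.toTube p) (3 / 8) with n | n
      · linarith [lm_one a.le n]
      · linarith [mul_pos P.N0 (h1.2 n)]
  · have h1 := D.far' (p := p) (by linarith [D.b4])
    have h2 := mul_nonneg (neg_nonneg.2 (D.β_V p)) (P.bb h).1.le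
    have h3 := D.nn p h1 (D.mh_eq h1 ▸ h)
    have e := D.V_v (p := p) (by linarith [D.b4])
    have h4 := fun n : D.β p ≠ 0 =>
      P.hN p h1.le (not_le.1 (mt (st_zero D.ab).2 n)).le
    have h5 := mul_nn (st_nonneg _ _ _) fun n => (h4 n).le
    rw [← e] at h3
    have h6 := mul_nonneg (sub_nonneg.2 (st_le D.a D.b (D.mh p))) h3
    rw [D.σ_in (D.bc.trans_le' h)]
    refine ⟨add_nonneg (add_nonneg h6 h5) h2, fun _ hM => add_pos_of_pos_of_nonneg ?_ h2⟩
    by_cases n : D.β p = 0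
    · have l := (st_zero D.ab).1 n
      rw [n, e]
      simpa using D.ps p h1 (D.mh_eq h1 ▸ l) fun k => hM (D.mem_M.2 ⟨l, k⟩)
    · exact add_pos_of_nonneg_of_pos h6 (mul_pos ((st_nonneg _ _ _).lt_of_ne' n) (h4 n))

end Dat

end Crest.Agent.X212.Lev39
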