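import Crest.Agent.X212.Lev39.Fld

/-!
# X212 / Lev39 (helper39): the two levels are connected;  `ssStmt : SsStmt`
-/

set_option autoImplicit false
set_option linter.unusedSectionVars false

open Set Filter Topology Function
open scoped ContDiff Manifold Real
open Crest.GeometryTopology.DehnSurgery Crest.Agent.X212.Glue52 Crest.Agent.X212.Ext52
open Crest.Agent.X212.Sm10 Crest.Agent.X212.Hel40 Crest.Agent.X212.St29

noncomputable section

namespace Crest.Agent.X212.Lev39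

namespace Dat

variable {k : KD} {D : Dat k} {C N c s u : ℝ} {x : E3} (P : D.Par C N) (F : Fw D.V)

variable (k) in
/-- the invariant region -/
def Z : Set E3 := {p | 3 / 16 < rho k.toTube p}

variable (D C N c) in
/-- the points of the cover which hit the level `c` -/
abbrev Γ : Set (E3 × ℝ) := F.Gam (D.σ C N) (Z k) D.M (An k (D.ψ' C N)) c

variable (k C N) in
/-- parametrisation of the cover of the inner shell -/
def bs (a : Circle × ℝ × ℝ) : E3 × ℝ :=
  (tb k.toTube (a.1, a.2.1 * Circle.exp a.2.2), a.2.2 + N * (st (3 / 8) (3 / 4) a.2.1 - (2 * C + 2)))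

variable (D C N c) in
/-- the component of the inner shell -/
abbrev G : Set (E3 × ℝ) :=
  connectedComponentIn (Γ D C N c F) (bs k C N (1, 1 / 4, c + N * (2 * C + 2)))

theorem sr_mono {a b : ℝ} (h0 : 0 < a) (h : a < b) (h1 : b ≤ 3 / 4) (x : E3) :
    Monotone fun t => sr k.toTube a b (F.φ t x) :=
  F.mono (fun p => ⟨(contDiff_sr h0 h (by linarith)).differentiable (by simp) p, by
    rw [D.sr_V h0 h h1]
    exact mul_nonneg (deriv_st_nonneg h _) (mul_nonneg kp_nonneg (rho_nonneg _ _))⟩) x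

theorem β_anti (x : E3) : Antitone fun t => D.β (F.φ t x) := fun _ _ h => neg_le_neg_iff.1 <|
  F.mono (f := -D.β) (fun p => ⟨(D.contDiff_β.differentiable (by simp) p).neg, by
    rw [fderiv_neg, neg_apply, neg_nonneg]; exact D.β_V p⟩) x h

theorem β_le {t : ℝ} (ht : 0 ≤ t) (x : E3) : D.β (F.φ t x) ≤ D.β x := by
  simpa only [F.zero] using β_anti F x ht

theorem le_β {t : ℝ} (ht : t ≤ 0) (x : E3) : D.β x ≤ D.β (F.φ t x) := by
  simpa only [F.zero] using β_anti F x ht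

theorem Z_inv (hx : x ∈ Z k) (t : ℝ) : F.φ t x ∈ Z k := by
  have d : Differentiable ℝ (sr k.toTube (3 / 16) (1 / 4)) :=
    (contDiff_sr (by norm_num) (by norm_num) (by norm_num)).differentiable (by simp)
  have := is_const_of_deriv_eq_zero (f := fun t => sr k.toTube (3 / 16) (1 / 4) (F.φ t x))
    (fun _ => (F.der_comp (d _)).differentiableAt) (fun t => by
      rw [(F.der_comp (d _)).deriv, D.sr_V (by norm_num) (by norm_num) (by norm_num)]
      by_cases e : deriv (st (3 / 16) (1 / 4)) (rho k.toTube (F.φ t x)) = 0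
      · rw [e, zero_mul]
      · rw [kp_zero (by linarith [(deriv_st_ne (by norm_num) e).2]), zero_mul, mul_zero]) t 0
  rw [F.zero] at this
  exact (st_pos (by norm_num : (3 / 16 : ℝ) < 1 / 4)).1
    (((st_pos (by norm_num)).2 hx).trans_eq this.symm)

theorem Z_pos (hx : x ∈ Z k) : 0 < rho k.toTube x := lt_trans (by norm_num) hx

theorem Z_far (hx : x ∈ Z k) : x ∈ rho k.toTube ⁻¹' Ici (3 / 16) :=
  le_of_lt (a := (3 / 16 : ℝ)) (b := rho k.toTube x) hx

theorem Z_of (h : D.mh x < 1) : x ∈ Z k := lt_trans (by norm_num) (D.far h)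

theorem csm_An {ψ : E3 → ℝ} (h : 0 < rho k.toTube x) (hψ : ContDiffAt ℝ ∞ ψ x) :
    ContMDiffAt (𝓡 3) (𝓡 1) ∞ (An k ψ) x := (contMDiffAt_th k h).mul (csm_exp hψ.contMDiffAt)

theorem An_M (h : x ∈ D.M) : An k (D.ψ' C N) x = 1 := by
  rw [An, D.ψ'_zero (D.mem_M.1 h).1]; exact h.2.2

theorem An_sub : An k D.ψ x = Circle.exp u ↔
    An k (D.ψ' C N) x = Circle.exp (u - (D.ψ x - D.ψ' C N x)) := by
  rw [An, An, Circle.exp_sub, Circle.exp_sub, div_div_eq_mul_div, eq_div_iff_mul_eq', mul_right_comm,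
    mul_left_inj]

theorem bb_eq (x : E3) : D.ψ x - D.ψ' C N x = D.β x * (D.ψ x - N * D.L C x) := by
  rw [ψ']; ring

theorem bs_in {a : Circle × ℝ × ℝ} (h : a.2.1 ∈ Ioo (3 / 16 : ℝ) (1 / 2)) :
    rho k.toTube (bs k C N a).1 = a.2.1 ∧
      An k (D.ψ' C N) (bs k C N a).1 = Circle.exp (bs k C N a).2 := by
  have h0 : 0 < a.2.1 := by linarith [h.1]
  have e : rho k.toTube (bs k C N a).1 = a.2.1 := rho_polar _ h0 (by linarith [h.2]) _ _
  refine ⟨e, ?_⟩
  rw [An, D.ψ'_one (by linarith [D.b4, D.mh_one (p := (bs k C N a).1) (by linarith [h.2])]),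
    D.L_in (by linarith [h.2]), e, bs, th_tb k (mul_ne_zero (Complex.ofReal_ne_zero.2 h0.ne')
      (Circle.coe_ne_zero _)), dir_mul h0, Circle.exp_add]

include P

theorem Par.ag : F.Ag (D.σ C N) (Z k) D.M (An k (D.ψ' C N)) :=
  ⟨D.continuous_σ C N, fun x => (P.σ_pos x).1, fun x hx => (P.σ_pos x).2 (lt_trans (by norm_num) hx),
    fun _ hx => Z_inv F hx, fun _ hx => F.ang_fl (D.continuous_σ C N) fun t =>
      ⟨csm_An (Z_pos (Z_inv F hx t)) (D.contDiff_ψ' C N).contDiffAt, rfl⟩⟩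

/-- points over the collar above the level -/
theorem Par.g1 (hx : x ∈ Z k) (h : D.a < D.mh x) (e : An k (D.ψ' C N) x = Circle.exp s)
    (hs : c ≤ s) : (x, s) ∈ Γ D C N c F := by
  have nM : ∀ y, D.β x ≤ D.β y → y ∉ D.M := fun y hy n =>
    ((st_pos D.ab).1 (((st_pos D.ab).2 h).trans_le hy)).not_ge (D.mem_M.1 n).1
  obtain ⟨t, h1, h2⟩ := F.hit_bwd (x := x) (D.continuous_σ C N)
    ((isCompact_far k.toTube (r := 3 / 16) (by norm_num)).inter_right
      (isClosed_le (continuous_const (y := D.β x)) D.contDiff_β.continuous))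
    (fun y hy => (P.σ_pos y).2 (lt_of_lt_of_le (by norm_num) hy.1) (nM y hy.2)) hs
    fun t ht _ => ⟨Z_far (Z_inv F hx t), le_β F ht x⟩
  exact ⟨hx, e, t, h2, nM _ (le_β F h1 x)⟩

theorem Par.mem_B (h : rho k.toTube x ∈ Ioo (3 / 16 : ℝ) (1 / 2))
    (e : An k (D.ψ' C N) x = Circle.exp s) (hs : c + N * st (3 / 8) (3 / 4) (rho k.toTube x) ≤ s) :
    (x, s) ∈ G D C N c F := by
  obtain ⟨y, u, h1⟩ := exists_polar (t := k.toTube) (p := x) (by linarith [h.2])
  have h2 := (bs_in (D := D) (C := C) (N := N) (a := (y, rho k.toTube x, Complex.arg u)) h).2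
  simp only [bs, Circle.exp_arg, ← h1, e, Circle.exp_add] at h2
  refine IsPreconnected.subset_connectedComponentIn
    (s := bs k C N '' (univ ×ˢ Ioo (3 / 16) (1 / 2) ×ˢ Ici (c + N * (2 * C + 2))))
    ((isPreconnected_univ.prod (isPreconnected_Ioo.prod isPreconnected_Ici)).image _
      fun a ha => ContinuousAt.continuousWithinAt (ContinuousAt.prodMk ?_ ?_))
    (mem_image_of_mem _ ⟨trivial, by norm_num, self_mem_Ici⟩) ?_
    ⟨(y, rho k.toTube x, s - N * (st (3 / 8) (3 / 4) (rho k.toTube x) - (2 * C + 2))),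
      ⟨trivial, h, mem_Ici.2 (by linarith)⟩, Prod.ext ?_ (sub_add_cancel _ _)⟩
  · exact ContinuousAt.comp (f := fun a : Circle × ℝ × ℝ => (a.1, (a.2.1 : ℂ) * Circle.exp a.2.2))
      (contMDiffAt_tb (mul_ne_zero (Complex.ofReal_ne_zero.2 (by linarith [ha.2.1.1]))
        (Circle.coe_ne_zero _))).continuousAt (by fun_prop)
  · have := (contDiff_st (3 / 8) (3 / 4)).continuous
    fun_prop
  · rintro _ ⟨a, ⟨-, h3, h4⟩, rfl⟩
    have h5 := bs_in (D := D) (C := C) (N := N) h3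
    refine P.g1 F (x := (bs k C N a).1) (h3.1.trans_eq h5.1.symm) ?_ h5.2 ?_
    · linarith [D.ab, D.b4, D.mh_one (p := (bs k C N a).1) (by linarith [h3.2, h5.1])]
    · linarith [mul_nonneg P.N0.le (st_nonneg (3 / 8) (3 / 4) a.2.1), mem_Ici.1 h4]
  · simp only [bs, Circle.exp_sub, h2, mul_div_cancel_right, ← h1]

theorem Par.leave {r : ℝ} (hr : 0 < r) : ∃ T > 0, ∀ x a, ∃ t ∈ Icc a (a + T),
    r ≤ kp k.toTube (F.φ t x) → D.mh (F.φ t x) < D.a := by
  obtain ⟨T, h0, h⟩ := F.leave ((D.isCompact_mh (isClosed_Ici (a := D.a)) (r := 3 / 8)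
    (by norm_num)).inter_right (isClosed_le (continuous_const (y := r)) contDiff_kp.continuous))
    (D.contDiff_L C) D.contDiff_V.continuous fun y hy => L_V P.hC (kp_pos.1 (hr.trans_le hy.2)) hy.1.2
  refine ⟨T, h0, fun x a => (h x a).imp fun t ht => ⟨ht.1, fun l => not_le.1 fun n => ht.2 ?_⟩⟩
  exact ⟨⟨(kp_pos.1 (hr.trans_le l)).le, n⟩, l⟩

/-- high points over the collar -/
theorem Par.high (c : ℝ) : ∃ H, ∀ x s, x ∈ Z k → D.a < D.mh x →
    An k (D.ψ' C N) x = Circle.exp s → H ≤ s → (x, s) ∈ G D C N c F := by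
  obtain ⟨T, T0, hT⟩ := P.leave F one_pos
  obtain ⟨S, hS⟩ := (isCompact_far k.toTube (r := 3 / 16) (by norm_num)).exists_bound_of_continuousOn
    (D.continuous_σ C N).continuousOn
  have S0 := mul_nonneg (abs_nonneg S) T0.le
  refine ⟨c + N + |S| * T, fun x s hx h e hs => ?_⟩
  obtain ⟨t, ht, h1⟩ := hT x (-T)
  rw [neg_add_cancel] at ht
  have h2 : rho k.toTube (F.φ t x) < 1 / 2 := (st_lt (by norm_num : (3 / 8 : ℝ) < 1 / 2)).1
    (not_le.1 fun n => (h1 n).not_gt ((st_pos D.ab).1 (((st_pos D.ab).2 h).trans_le (le_β F ht.2 x))))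
  have h3 := lin (ε := -|S|) ht.2 fun r _ => ⟨(F.der_ag (D.continuous_σ C N) x r).neg, neg_le_neg
    ((le_abs_self _).trans ((hS _ (Z_far (Z_inv F hx r))).trans (le_abs_self S)))⟩
  rw [Pi.neg_apply, Pi.neg_apply, F.ag_zero] at h3
  refine (P.ag F).back (t := t) (P.g1 F hx h e (by linarith [P.N0]))
    (P.mem_B F ⟨Z_inv F hx t, h2⟩ ((P.ag F).lift hx e t) ?_)
  nlinarith [mul_le_mul_of_nonneg_left (st_le (3 / 8) (3 / 4) (rho k.toTube (F.φ t x))) P.N0.le,
    mul_le_mul_of_nonneg_left ht.1 (abs_nonneg S)]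

theorem Par.mid (hc : c ∈ Ioo 0 (2 * π)) (hs : s ∈ Ioo 0 (2 * π)) (hx : x ∈ Z k)
    (e : An k (D.ψ' C N) x = Circle.exp s) : (x, s) ∈ Γ D C N c F :=
  (P.ag F).mid (isCompact_far k.toTube (r := 3 / 16) (by norm_num))
    (fun _ hy => (csm_An (lt_of_lt_of_le (by norm_num) hy)
      (D.contDiff_ψ' C N).contDiffAt).continuousAt.continuousWithinAt) (fun _ => Z_far)
    (fun y hy n => (P.σ_pos y).2 (lt_of_lt_of_le (by norm_num) hy) fun l => n (An_M l))
    (fun _ => An_M) hc hs hx e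

/-- points near `{m = a}` with positive old angle -/
theorem Par.g2 (hc : c ∈ Ico 0 (2 * π)) (h : D.a < D.mh x) (h' : D.mh x < D.b)
    (e : An k D.ψ x = Circle.exp u) (hu : 0 < u) : (x, u - (D.ψ x - D.ψ' C N x)) ∈ Γ D C N c F := by
  have hx : x ∈ Z k := Z_of (by linarith [D.b4])
  have e' := (An_sub (C := C) (N := N)).1 e
  rcases le_or_gt c (u - (D.ψ x - D.ψ' C N x)) with l | l
  · exact P.g1 F hx h e' l
  have hb : ∀ t, 0 ≤ t → D.mh (F.φ t x) < D.b := fun t ht =>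
    (st_lt D.ab).1 ((β_le F ht x).trans_lt ((st_lt D.ab).2 h'))
  have up : ∀ t, 0 ≤ t → D.mh (F.φ t x) ≤ D.a →
      0 < u - (D.ψ x - D.ψ' C N x) + F.ag (D.σ C N) x t := fun t ht n => by
    have := lin (ε := 0) ht fun r hr => ⟨(F.der_ag (D.continuous_σ C N) x r).add
      ((F.der_comp ((D.ψ_at ((hb r hr.1).trans D.bc)).differentiableAt (by simp))).sub
        (F.der_comp ((D.contDiff_ψ' C N).differentiable (by simp) _))), by
      have a := D.far' (p := F.φ r x) (by linarith [hb r hr.1, D.b4])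
      have b := D.nn _ a (D.mh_eq a ▸ (hb r hr.1).le)
      rw [← D.V_v (by linarith [hb r hr.1, D.b4]), dl_An k (by linarith)
        (D.ψ_at ((hb r hr.1).trans D.bc))] at b
      rw [D.σ_eq (by linarith)]
      linarith⟩
    simp only [Pi.add_apply, Pi.sub_apply, F.zero, F.ag_zero, D.ψ'_zero n] at this
    linarith
  obtain ⟨T, -, hT⟩ := P.leave F one_pos
  obtain ⟨t, ht, h1⟩ := hT x 0
  have h2 := up t ht.1 (h1 ((st_one (by norm_num)).2 (D.far' (by linarith [hb t ht.1, D.b4])).le).ge).le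
  rcases le_or_gt c (u - (D.ψ x - D.ψ' C N x) + F.ag (D.σ C N) x t) with n | n
  · obtain ⟨r, h3, h4⟩ := intermediate_value_Icc ht.1
      (f := fun t => u - (D.ψ x - D.ψ' C N x) + F.ag (D.σ C N) x t) (continuous_const.add
      (continuous_iff_continuousAt.2 fun t =>
        (F.der_ag (D.continuous_σ C N) x t).continuousAt)).continuousOn
      (show c ∈ Icc _ _ from ⟨by rw [F.ag_zero, add_zero]; exact l.le, n⟩)
    refine ⟨hx, e', r, h4, fun hM => ?_⟩
    have h5 : 0 < c := (up r h3.1 (D.mem_M.1 hM).1).trans_eq h4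
    obtain ⟨-, h6, r', h7, h8⟩ := P.mid F ⟨h5, hc.2⟩ ⟨h5, hc.2⟩ (Z_inv F hx r)
      (((P.ag F).lift hx e' r).trans (congrArg _ h4))
    obtain ⟨j, hj⟩ := Circle.exp_eq_one.1 (h6.symm.trans (An_M hM))
    have a : (0 : ℝ) < j := (mul_pos_iff_of_pos_right Real.two_pi_pos).1 (hj ▸ h5)
    have b : (j : ℝ) < 1 := lt_of_mul_lt_mul_right (by rw [one_mul, ← hj]; exact hc.2)
      Real.two_pi_pos.le
    have a' : 0 < j := by exact_mod_cast a
    have b' : j < 1 := by exact_mod_cast b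
    omega
  · exact (P.ag F).of_orb hx e' (P.mid F ⟨h2.trans n, hc.2⟩ ⟨h2, n.trans hc.2⟩ (Z_inv F hx t)
      ((P.ag F).lift hx e' t))

omit P in
theorem cont_bb (h : D.mh x < D.b) : ContinuousAt (fun y => D.ψ y - D.ψ' C N y) x :=
  (D.ψ_at (h.trans D.bc)).continuousAt.sub (D.contDiff_ψ' C N).continuous.continuousAt

theorem Par.g3 (hc : c ∈ Ico 0 (2 * π)) (h : D.a < D.mh x) (h' : D.mh x < D.b)
    (e : An k D.ψ x = Circle.exp u) (hu : 0 < u) : (x, u - (D.ψ x - D.ψ' C N x)) ∈ G D C N c F := by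
  obtain ⟨H, hH⟩ := P.high F c
  obtain ⟨n, hn⟩ := exists_nat_ge (H + (N + N * (2 * C + 2)) - u)
  induction n generalizing x u with
  | zero =>
    refine hH _ _ (Z_of (by linarith [D.b4])) h (An_sub.1 e) ?_
    have := P.bb h'.le
    rw [bb_eq]
    nlinarith [show D.β x ≤ 1 from st_le _ _ _, show ((0 : ℕ) : ℝ) = 0 from Nat.cast_zero]
  | succ n ih =>
    have h1 := D.far' (p := x) (by linarith [D.b4])
    obtain ⟨S, h2, h3, ⟨q, h4, h5⟩, h6⟩ := D.i2 x u h1 (D.mh_eq h1 ▸ h) (D.mh_eq h1 ▸ h') hu e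
    have h7 : ∀ q ∈ S, D.a < D.mh q.1 ∧ D.mh q.1 < D.b := fun q hq =>
      D.mh_eq (h6 q hq).1 ▸ ⟨(h6 q hq).2.1, (h6 q hq).2.2.1⟩
    refine join (h2.image (fun q => (q.1, q.2 - (D.ψ q.1 - D.ψ' C N q.1))) fun q hq =>
      (continuousAt_fst.prodMk (continuousAt_snd.sub
        ((cont_bb (h7 q hq).2).comp continuousAt_fst))).continuousWithinAt) ?_
      (mem_image_of_mem _ h4) (mem_image_of_mem _ h3)
      (ih (h7 q h4).1 (h7 q h4).2 (h6 q h4).2.2.2.2 (h6 q h4).2.2.2.1 (by push_cast at hn; linarith))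
    rintro _ ⟨q, hq, rfl⟩
    exact P.g2 F hc (h7 q hq).1 (h7 q hq).2 (h6 q hq).2.2.2.2 (h6 q hq).2.2.2.1

/-- points of the level over the collar -/
theorem Par.col (hc : c ∈ Ico 0 (2 * π)) (hx : x ∈ Z k) (h : D.a < D.mh x)
    (e : An k (D.ψ' C N) x = Circle.exp c) : (x, c) ∈ G D C N c F := by
  rcases le_or_gt (rho k.toTube x) (3 / 8) with l | l
  · exact P.mem_B F ⟨hx, by linarith⟩ e (by rw [(st_zero (by norm_num)).2 l, mul_zero, add_zero])
  obtain ⟨t, t0, h1, h2⟩ : ∃ t, 0 ≤ t ∧ D.a < D.mh (F.φ t x) ∧ D.mh (F.φ t x) < D.b := by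
    rcases lt_or_ge (D.mh x) D.b with n | n
    · exact ⟨0, le_rfl, by rwa [F.zero], by rwa [F.zero]⟩
    obtain ⟨T, -, hT⟩ := P.leave F (kp_pos.2 l)
    obtain ⟨t, ht, h1⟩ := hT x 0
    have h2 := h1 (by simpa only [F.zero, kp] using sr_mono F (by norm_num) (by norm_num) (by norm_num) x ht.1)
    obtain ⟨r, h3, h4⟩ := intermediate_value_Icc' ht.1 (f := fun t => D.mh (F.φ t x))
      (D.contDiff_mh.continuous.comp (F.cont' continuous_id continuous_const)).continuousOn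
      (show (D.a + D.b) / 2 ∈ Icc _ _ from ⟨by linarith [D.ab], by rw [F.zero]; linarith [D.ab]⟩)
    exact ⟨r, h3.1, by linarith [D.ab], by linarith [D.ab]⟩
  have h3 := P.g3 F hc h1 h2 (u := c + F.ag (D.σ C N) x t + (D.ψ (F.φ t x) - D.ψ' C N (F.φ t x)))
    (An_sub.2 (by rw [add_sub_cancel_right]; exact (P.ag F).lift hx e t)) (by
      have := (P.ag F).mono x t0
      rw [F.ag_zero] at this
      rw [bb_eq]
      linarith [mul_pos (show 0 < D.β _ from (st_pos D.ab).2 h1) (P.bb h2.le).1, hc.1])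
  rw [add_sub_cancel_right] at h3
  exact (P.ag F).back (P.g1 F hx h e le_rfl) h3

include F

theorem Par.c0 : IsPreconnected {p | p ∈ Z k ∧ An k (D.ψ' C N) p = 1 ∧ p ∉ D.M} := by
  rw [← Circle.exp_zero]
  refine (P.ag F).conn fun p h1 h2 h3 => P.col F ⟨le_rfl, Real.two_pi_pos⟩ h1 (not_le.1 fun n => ?_) h2
  rw [An, D.ψ'_zero n, Circle.exp_zero] at h2
  exact h3 (D.mem_M.2 ⟨n, h2⟩)

theorem Par.c1 : IsPreconnected {p | p ∈ Z k ∧ An k (D.ψ' C N) p = -1} := by
  have e : Circle.exp π = -1 := Circle.ext (by simp)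
  have hc : π ∈ Ioo 0 (2 * π) := ⟨Real.pi_pos, by linarith [Real.pi_pos]⟩
  have hc' := Ioo_subset_Ico_self hc
  have := (P.ag F).conn (c := π) (b := bs k C N (1, 1 / 4, π + N * (2 * C + 2)))
    fun p h1 h2 _ => ?_
  · rw [e] at this
    have e' : {p | p ∈ Z k ∧ An k (D.ψ' C N) p = -1} =
        {p | p ∈ Z k ∧ An k (D.ψ' C N) p = -1 ∧ p ∉ D.M} :=
      Set.ext fun p => ⟨fun h => ⟨h.1, h.2, fun n => neg_ne_one (h.2.symm.trans (An_M n))⟩,
        fun h => ⟨h.1, h.2.1⟩⟩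
    exact e' ▸ this
  rcases lt_or_ge D.a (D.mh p) with n | n
  · exact P.col F hc' h1 n h2
  have h3 := D.far' (p := p) (by linarith [D.ab, D.b4])
  have h4 : An k D.ψ p = -1 := by rwa [An, D.ψ'_zero n, e] at h2
  obtain ⟨S, h5, h6, ⟨q, h7, h8⟩, h9⟩ := D.i1 p h3 (D.mh_eq h3 ▸ n) h4
  have hb : ∀ q ∈ S, D.mh q < D.b := fun q hq => D.mh_eq (h9 q hq).1 ▸ (h9 q hq).2.1
  have sl : ∀ q ∈ S, -(An k D.ψ q : ℂ) ∈ Complex.slitPlane := fun q hq => by
    refine Complex.mem_slitPlane_iff_arg.2 ⟨fun a => (h9 q hq).2.2 ?_, by simp⟩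
    have := Circle.exp_arg (-An k D.ψ q)
    rw [Circle.coe_neg, a, e] at this
    exact (neg_injective this).symm
  have hu : ∀ q ∈ S, π + Complex.arg (-(An k D.ψ q : ℂ)) ∈ Ioo 0 (2 * π) ∧
      An k D.ψ q = Circle.exp (π + Complex.arg (-(An k D.ψ q : ℂ))) := fun q hq =>
    ⟨⟨by linarith [Complex.neg_pi_lt_arg (-(An k D.ψ q : ℂ))], by
      linarith [(Complex.arg_le_pi _).lt_of_ne (Complex.mem_slitPlane_iff_arg.1 (sl q hq)).1]⟩, by
      rw [Circle.exp_add, e, ← Circle.coe_neg, Circle.exp_arg, neg_one_mul, neg_neg]⟩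
  have := join (h5.image
    (fun q => (q, π + Complex.arg (-(An k D.ψ q : ℂ)) - (D.ψ q - D.ψ' C N q))) fun q hq =>
      (continuousAt_id.prodMk ((continuousAt_const.add ((Complex.continuousAt_arg (sl q hq)).comp
        (f := fun q => -(An k D.ψ q : ℂ)) (continuous_subtype_val.continuousAt.comp
          (csm_An (by linarith [(h9 q hq).1]) (D.ψ_at ((hb q hq).trans D.bc))).continuousAt).neg)).sub
        (cont_bb (hb q hq)))).continuousWithinAt) ?_ (mem_image_of_mem _ h7) (mem_image_of_mem _ h6)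
    (P.g3 F hc' (D.mh_eq (h9 q h7).1 ▸ h8) (hb q h7) (hu q h7).2 (hu q h7).1.1)
  · simpa [h4, D.ψ'_zero n] using this
  · rintro _ ⟨y, hy, rfl⟩
    rcases lt_or_ge D.a (D.mh y) with l | l
    · exact P.g2 F hc' l (hb y hy) (hu y hy).2 (hu y hy).1.1
    · exact P.mid F hc (by rw [D.ψ'_zero l, sub_self, sub_zero]; exact (hu y hy).1)
        (Z_of (by linarith [D.b4, hb y hy])) (An_sub.1 (hu y hy).2)

end Dat

/-- **SS** -/
theorem ssStmt : SsStmt := fun k D => by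
  obtain ⟨C, N, P⟩ := D.exists_par
  obtain ⟨F⟩ := exists_fw D.contDiff_V (isCompact_far k.toTube (r := 1 / 32) (by norm_num))
    fun x hx => D.V_zero (not_le.1 hx).le
  have e : Out k.toTube (3 / 8 / 2) = Dat.Z k := Set.ext fun p => by
    rw [mem_Out (by norm_num)]; norm_num [Dat.Z]
  have o : ∀ p ∈ Out k.toTube (3 / 8 / 4), 3 / 32 < rho k.toTube p := fun p hp => by
    linarith [(mem_Out (by norm_num)).1 hp]
  refine ⟨D.V, D.ψ' C N, ⟨by norm_num, D.contDiff_V.contDiffOn, (D.contDiff_ψ' C N).contDiffOn,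
    ⟨N * -(2 * C + 2), fun z a b => ?_⟩, ?_, fun p hp => (mem_Out (by norm_num)).2 (by linarith [hp.1]),
    fun p _ => (P.σ_pos p).1, fun p hp => (P.σ_pos p).2 (o p hp), fun p => Dat.An_M,
    e ▸ P.c0 F, e ▸ P.c1 F⟩, fun p a b => D.V_v (D.mh_eq a ▸ b), fun p a b => D.ψ'_zero (D.mh_eq a ▸ b)⟩
  · have n : z.2 ≠ 0 := norm_pos_iff.1 (by linarith)
    have r : rho k.toTube (tb k.toTube z) = ‖z.2‖ := (rho_tb n).trans (min_eq_left (by linarith))
    constructor
    · rw [D.ψ'_one (by linarith [D.b4, D.mh_one (p := tb k.toTube z) (by linarith)]),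
        D.L_in (by linarith), (st_zero (by norm_num)).2 (by linarith), zero_sub]
    · rw [D.V_W (by linarith), WW, lm_one (by linarith) (by linarith), kp_zero (by linarith), one_smul,
        zero_smul, add_zero]
      exact Ax_eq n _
  · have K := D.isCompact_mh (isClosed_Iic (a := D.a)) one_half_pos
    have := ContinuousOn.preimage_isClosed_of_isClosed (f := An k D.ψ) (fun p hp => (Dat.csm_An
      (one_half_pos.trans_le hp.1) (D.ψ_at ((D.ab.trans D.bc).trans_le' hp.2))).continuousAt.continuousWithinAt)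
      K.isClosed (isClosed_singleton (x := 1))
    refine K.of_isClosed_subset ?_ fun p hp => ⟨hp.1.le, (D.mem_M.1 hp).1⟩
    convert this using 1
    exact Set.ext fun p => ⟨fun hp => ⟨⟨hp.1.le, (D.mem_M.1 hp).1⟩, hp.2.2⟩, fun hp => D.mem_M.2 ⟨hp.1.2, hp.2⟩⟩

end Crest.Agent.X212.Lev39
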