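import Crest.Agent.X212.Lev39.Trp
import Crest.Agent.X212.Lev39.Dat
import Crest.Agent.X212.Mol27.Pl

/-!
# X212 / Lev39 (helper39): steps, radial and rotation fields of the tube, scaling

* `st a b`, `sr t a b` : smooth steps;  `Ax t p w` : the field `(0, w z)` read in the chart;
* `sclStmt : SclStmt`.
-/

set_option autoImplicit false
set_option linter.unusedSectionVars false

open Set Filter Topology Function
open scoped ContDiff Manifold
open Crest.GeometryTopology.DehnSurgery Crest.Agent.X212.Glue52 Crest.Agent.X212.Ext52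
open Crest.Agent.X212.Sm10 Crest.Agent.X212.Hel40 Crest.Agent.X212.St29
open Crest.Agent.X212.Cab39 hiding rt
open Crest.Agent.X212.Dr59 (mf mf_comp mf_congr mf_eq_fderiv ne0)
open Crest.Agent.X212.Line51 (CSm)

noncomputable section

namespace Crest.Agent.X212.Lev39

/-! ### steps -/

/-- `0` below `a`, `1` above `b` -/
def st (a b x : ℝ) : ℝ := Real.smoothTransition ((x - a) / (b - a))

section st

variable {a b x : ℝ}

theorem contDiff_st (a b : ℝ) : ContDiff ℝ ∞ (st a b) :=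
  Real.smoothTransition.contDiff.comp ((contDiff_id.sub contDiff_const).div_const _)

theorem st_nonneg (a b x : ℝ) : 0 ≤ st a b x := Real.smoothTransition.nonneg _
theorem st_le (a b x : ℝ) : st a b x ≤ 1 := Real.smoothTransition.le_one _

theorem st_zero (h : a < b) : st a b x = 0 ↔ x ≤ a := by
  rw [st, Real.smoothTransition.zero_iff_nonpos, div_le_iff₀ (sub_pos.2 h), zero_mul, sub_nonpos]

theorem st_one (h : a < b) : st a b x = 1 ↔ b ≤ x := by
  rw [st, Real.smoothTransition.eq_one_iff_one_le, one_le_div (sub_pos.2 h), sub_le_sub_iff_right]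

theorem st_pos (h : a < b) : 0 < st a b x ↔ a < x := by
  rw [(st_nonneg a b x).lt_iff_ne', Ne, st_zero h, not_le]

theorem st_lt (h : a < b) : st a b x < 1 ↔ x < b := by
  rw [(st_le a b x).lt_iff_ne, Ne, st_one h, not_le]

theorem der_st (a b x : ℝ) : HasDerivAt (st a b) (deriv (st a b) x) x :=
  ((contDiff_st a b).differentiable (by simp) x).hasDerivAt

theorem deriv_st_nonneg (h : a < b) (x : ℝ) : 0 ≤ deriv (st a b) x :=
  Monotone.deriv_nonneg fun _ _ k => Real.smoothTransition.monotone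
    (div_le_div_of_nonneg_right (by linarith) (by linarith))

theorem deriv_st_pos (h0 : a < x) (h1 : x < b) : 0 < deriv (st a b) x := by
  have k : 0 < b - a := by linarith
  have d := ((Real.smoothTransition.contDiff (n := 1)).differentiable (by simp) _).hasDerivAt.comp x
    (((hasDerivAt_id x).sub_const a).div_const (b - a))
  rw [show deriv (st a b) x = _ from d.deriv]
  exact mul_pos (Mol27.deriv_st_pos (div_pos (sub_pos.2 h0) k) ((div_lt_one k).2 (by simp; linarith)))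
    (one_div_pos.2 k)

theorem deriv_st_ne (h : a < b) (k : deriv (st a b) x ≠ 0) : a < x ∧ x < b :=
  ⟨not_le.1 fun l => k (IsLocalMin.deriv_eq_zero (Eventually.of_forall fun y =>
      ((st_zero h).2 l).trans_le (st_nonneg a b y))),
    not_le.1 fun l => k (IsLocalMax.deriv_eq_zero (Eventually.of_forall fun y =>
      (st_le a b y).trans_eq ((st_one h).2 l).symm))⟩

theorem fderiv_st {E : Type*} [NormedAddCommGroup E] [NormedSpace ℝ E] {f : E → ℝ} {p : E}
    (hf : DifferentiableAt ℝ f p) (a b : ℝ) (w : E) :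
    fderiv ℝ (fun q => st a b (f q)) p w = deriv (st a b) (f p) * fderiv ℝ f p w := by
  rw [show fderiv ℝ (fun q => st a b (f q)) p = _ from
    ((der_st a b _).comp_hasFDerivAt p hf.hasFDerivAt).fderiv]
  rfl

end st

variable {t : Tube} {a b r : ℝ} {p : E3} {z : Circle × ℂ}

theorem rho_nonneg (t : Tube) (p : E3) : 0 ≤ rho t p :=
  not_lt.1 fun h => let ⟨_, _, k⟩ := exists_τ (h.trans (by norm_num : (0 : ℝ) < 4))
    (norm_nonneg _).not_gt (k ▸ h)

theorem mem_Out (hr : r < 4) : p ∈ Out t r ↔ r < rho t p := by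
  refine ⟨fun h => not_le.1 fun k => ?_, fun h ⟨z, h1, h2⟩ => ?_⟩
  · obtain ⟨z, h1, h2⟩ := exists_τ (k.trans_lt hr)
    exact h (h1 ▸ τ_mem_ctube.2 (h2 ▸ k))
  · rw [rho, ← h2, rhoS_τ] at h
    exact ((min_le_left _ _).trans h1).not_gt h

theorem exists_tb (h0 : 0 < rho t p) (h : rho t p < 4) :
    ∃ z : Circle × ℂ, z.2 ≠ 0 ∧ ‖z.2‖ = rho t p ∧ tb t z = p :=
  let ⟨z, h1, h2⟩ := exists_τ h
  ⟨z, norm_pos_iff.1 (h2 ▸ h0), h2.symm, tb_of_sg h1⟩

theorem ev_lt (h : rho t p < a) : ∀ᶠ q in 𝓝 p, rho t q < a :=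
  (continuous_rho t).continuousAt.eventually (gt_mem_nhds h)

theorem ev_gt (h : a < rho t p) : ∀ᶠ q in 𝓝 p, a < rho t q :=
  (continuous_rho t).continuousAt.eventually (lt_mem_nhds h)

/-- a step in the radius -/
def sr (t : Tube) (a b : ℝ) (p : E3) : ℝ := st a b (rho t p)

theorem sr_cases (h0 : 0 < a) (h : a < b) (h4 : b < 4) (p : E3) :
    (0 < rho t p ∧ rho t p < 4) ∨ (deriv (st a b) (rho t p) = 0 ∧ ∃ c, sr t a b =ᶠ[𝓝 p] fun _ => c) := by
  rcases lt_or_ge (rho t p) a with k | k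
  · exact .inr ⟨by_contra fun n => (deriv_st_ne h n).1.not_gt k, 0,
      (ev_lt k).mono fun q hq => (st_zero h).2 hq.le⟩
  rcases lt_or_ge b (rho t p) with l | l
  · exact .inr ⟨by_contra fun n => (deriv_st_ne h n).2.not_gt l, 1,
      (ev_gt l).mono fun q hq => (st_one h).2 hq.le⟩
  · exact .inl ⟨h0.trans_le k, l.trans_lt h4⟩

theorem contDiff_sr (h0 : 0 < a) (h : a < b) (h4 : b < 4) : ContDiff ℝ ∞ (sr t a b) :=
  contDiff_iff_contDiffAt.2 fun p => (sr_cases h0 h h4 p).elim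
    (fun k => (contDiff_st a b).contDiffAt.comp p (contDiffAt_rho k.1 k.2))
    fun ⟨_, _, k⟩ => contDiffAt_const.congr_of_eventuallyEq k

theorem fderiv_sr (h0 : 0 < a) (h : a < b) (h4 : b < 4) (p w : E3) :
    fderiv ℝ (sr t a b) p w = deriv (st a b) (rho t p) * fderiv ℝ (rho t) p w :=
  (sr_cases h0 h h4 p).elim
    (fun k => fderiv_st ((contDiffAt_rho k.1 k.2).differentiableAt (by simp)) a b w)
    fun ⟨k1, _, k⟩ => by rw [k.fderiv_eq, k1]; simp

/-! ### the fields of the tube -/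

/-- tube coordinates of a point -/
def jt (t : Tube) (p : E3) : Circle × ℂ := extend t.τ id (fun _ => (1, 0)) (sg t p)

theorem jt_tb (h : z.2 ≠ 0) : jt t (tb t z) = z := by rw [jt, sg_tb h, t.inj.extend_apply, id]

theorem sm_jt (h : z.2 ≠ 0) : ContMDiffAt (𝓡 3) IT ∞ (jt t) (tb t z) :=
  (show ContMDiffAt (𝓡 3) IT ∞ (extend t.τ id fun _ => (1, 0)) (sg t (tb t z)) from
    sg_tb (t := t) h ▸ t.patch_in contMDiffAt_id).comp _ ((ld_sg t).contMDiff _)

/-- the field `(0, w z)` in the chart -/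
def Ax (t : Tube) (p : E3) : ℂ →L[ℝ] E3 :=
  fderiv ℝ (fun ζ : ℂ => tb t ((jt t p).1, ζ * (jt t p).2)) 1

theorem sm_Ax (h : z.2 ≠ 0) : ContDiffAt ℝ ∞ (Ax t) (tb t z) := by
  have h1 : ContMDiffAt 𝓘(ℝ, E3 × ℂ) IT ∞ (fun q : E3 × ℂ => jt t q.1) (tb t z, 1) :=
    ContMDiffAt.comp (g := jt t) (f := Prod.fst) ((tb t z, 1) : E3 × ℂ) (sm_jt h)
      (contDiff_fst (𝕜 := ℝ) (E := E3) (F := ℂ)).contMDiff.contMDiffAt
  have h2 : ContMDiffAt 𝓘(ℝ, E3 × ℂ) IT ∞ (fun q : E3 × ℂ => ((jt t q.1).1, q.2 * (jt t q.1).2))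
      (tb t z, 1) := h1.fst.prodMk ((contDiff_mul (𝕜 := ℝ) (𝔸 := ℂ)).contMDiff.contMDiffAt.comp _
        (contDiff_snd.contMDiff.contMDiffAt.prodMk_space h1.snd))
  exact ContDiffAt.fderiv (n := ∞) (ContMDiffAt.comp _ (contMDiffAt_tb (by
    simpa only [jt_tb h, one_mul] using h)) h2).contDiffAt contDiffAt_const (by simp)

theorem sm_line (z : Circle × ℂ) : ContMDiff 𝓘(ℝ, ℂ) IT ∞ fun ζ : ℂ => (z.1, ζ * z.2) :=
  contMDiff_const.prodMk (contDiff_id.mul contDiff_const).contMDiff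

theorem has_Ax (h : z.2 ≠ 0) :
    HasFDerivAt (fun ζ : ℂ => tb t (z.1, ζ * z.2)) (Ax t (tb t z)) 1 := by
  rw [Ax, jt_tb h]
  exact ((ContMDiffAt.comp _ (contMDiffAt_tb (by simpa only [one_mul] using h))
    (sm_line z 1)).contDiffAt.differentiableAt (by simp)).hasFDerivAt

theorem Ax_eq (h : z.2 ≠ 0) (w : ℂ) : Ax t (tb t z) w =
    mfderiv IT (𝓡 3) (tb t) z ((0, w * z.2) : EuclideanSpace ℝ (Fin 1) × ℂ) := by
  have h0 : HasFDerivAt (fun ζ : ℂ => ζ * z.2) ((ContinuousLinearMap.mul ℝ ℂ).flip z.2) 1 :=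
    ((ContinuousLinearMap.mul ℝ ℂ).flip z.2).hasFDerivAt
  have h1 := (hasMFDerivAt_const (I := 𝓘(ℝ, ℂ)) (I' := 𝓡 1) z.1 (1 : ℂ)).prodMk h0.hasMFDerivAt
  have h2 : MDifferentiableAt IT (𝓡 3) (tb t) (z.1, 1 * z.2) :=
    (contMDiffAt_tb (by simpa only [one_mul] using h)).mdifferentiableAt ne0
  have h3 := mf_comp (f := fun ζ : ℂ => (z.1, ζ * z.2)) h2 h1.mdifferentiableAt
  rw [mf_eq_fderiv, show fderiv ℝ (tb t ∘ fun ζ : ℂ => (z.1, ζ * z.2)) 1 = _ from (has_Ax h).fderiv,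
    show mf 𝓘(ℝ, ℂ) IT (fun ζ : ℂ => (z.1, ζ * z.2)) 1 = _ from h1.mfderiv, one_mul] at h3
  exact congrArg (fun L : ℂ →L[ℝ] E3 => L w) h3

section der

variable {G : Type*} [NormedAddCommGroup G] [NormedSpace ℝ G] {f : E3 → G}

theorem der_Ax (h : z.2 ≠ 0) (hf : DifferentiableAt ℝ f (tb t z)) {γ : ℝ → ℂ} {s : ℝ} {w : ℂ}
    (h1 : γ s = 1) (h2 : HasDerivAt γ w s) :
    HasDerivAt (fun s => f (tb t (z.1, γ s * z.2))) (fderiv ℝ f (tb t z) (Ax t (tb t z) w)) s :=
  hf.hasFDerivAt.comp_hasDerivAt_of_eq s ((has_Ax h).comp_hasDerivAt_of_eq s h2 h1.symm)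
    (by simp only [h1, one_mul])

theorem der_rad (h : z.2 ≠ 0) (hf : DifferentiableAt ℝ f (tb t z)) :
    HasDerivAt (fun s : ℝ => f (tb t (z.1, s * z.2))) (fderiv ℝ f (tb t z) (Ax t (tb t z) 1)) 1 :=
  der_Ax h hf Complex.ofReal_one Complex.ofRealCLM.hasDerivAt

theorem der_exp : HasDerivAt (fun s : ℝ => (Circle.exp s : ℂ)) Complex.I 0 := by
  simpa using ((hasDerivAt_id (0 : ℝ)).ofReal_comp.mul_const Complex.I).cexp

theorem der_rot (h : z.2 ≠ 0) (hf : DifferentiableAt ℝ f (tb t z)) :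
    HasDerivAt (fun s : ℝ => f (tb t (z.1, Circle.exp s * z.2)))
      (fderiv ℝ f (tb t z) (Ax t (tb t z) Complex.I)) 0 := der_Ax h hf (by simp) der_exp

end der

theorem rho_rot (h0 : 0 < rho t p) (h : rho t p < 4) : fderiv ℝ (rho t) p (Ax t p Complex.I) = 0 := by
  have d := (contDiffAt_rho h0 h).differentiableAt (by simp)
  obtain ⟨z, h1, -, rfl⟩ := exists_tb h0 h
  refine (der_rot h1 d).unique ((hasDerivAt_const _ (min ‖z.2‖ 4)).congr_of_eventuallyEq
    (Eventually.of_forall fun s => ?_))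
  show rho t _ = _
  rw [rho_tb (mul_ne_zero (Circle.coe_ne_zero _) h1), norm_mul, Circle.norm_coe, one_mul]

theorem rho_rad (h0 : 0 < rho t p) (h : rho t p < 4) : fderiv ℝ (rho t) p (Ax t p 1) = rho t p := by
  have d := (contDiffAt_rho h0 h).differentiableAt (by simp)
  obtain ⟨z, h1, h2, rfl⟩ := exists_tb h0 h
  refine (der_rad h1 d).unique ((hasDerivAt_mul_const (rho t (tb t z))).congr_of_eventuallyEq ?_)
  filter_upwards [lt_mem_nhds one_pos, (continuous_id.mul continuous_const).continuousAt.eventually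
    (gt_mem_nhds (show (1 : ℝ) * ‖z.2‖ < 4 by rwa [one_mul, h2]))] with s s0 s1
  rw [rho_tb (mul_ne_zero (Complex.ofReal_ne_zero.2 s0.ne') h1), norm_mul, Complex.norm_real,
    Real.norm_of_nonneg s0.le, ← h2]
  exact min_eq_left s1.le

theorem dl_th (k : KD) (p w : E3) :
    dl (𝓡 3) (th k) p w = (star (th k p : ℂ) * fderiv ℝ (fun q => (th k q : ℂ)) p w).im := by
  rw [dl_apply, mf_eq_fderiv]

theorem th_rot (k : KD) (h0 : 0 < rho k.toTube p) (h : rho k.toTube p < 4) :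
    dl (𝓡 3) (th k) p (Ax k.toTube p Complex.I) = 1 := by
  have d := (contDiffAt_th k h0).differentiableAt (by simp)
  obtain ⟨z, h1, -, rfl⟩ := exists_tb h0 h
  rw [dl_th, (der_rot h1 d).unique ((der_exp.mul_const (dir z.2 : ℂ)).congr_of_eventuallyEq
    (Eventually.of_forall fun s => by
      show (th k _ : ℂ) = _
      rw [th_tb k (mul_ne_zero (Circle.coe_ne_zero _) h1), dir_mul_dir (Circle.coe_ne_zero _) h1,
        Circle.coe_mul, show dir (Circle.exp s : ℂ) = Circle.exp s by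
          simpa using dir_mul one_pos (Circle.exp s)])), th_tb k h1, mul_left_comm,
    Complex.star_def, ← Complex.normSq_eq_conj_mul_self, Circle.normSq_coe]
  simp

theorem th_rad (k : KD) (h0 : 0 < rho k.toTube p) (h : rho k.toTube p < 4) :
    dl (𝓡 3) (th k) p (Ax k.toTube p 1) = 0 := by
  have d := (contDiffAt_th k h0).differentiableAt (by simp)
  obtain ⟨z, h1, -, rfl⟩ := exists_tb h0 h
  rw [dl_th, (der_rad h1 d).unique ((hasDerivAt_const _ (dir z.2 : ℂ)).congr_of_eventuallyEq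
    ((lt_mem_nhds one_pos).mono fun s (s0 : 0 < s) => by
      show (th k _ : ℂ) = _
      rw [th_tb k (mul_ne_zero (Complex.ofReal_ne_zero.2 s0.ne') h1), dir_real_mul s0 h1]))]
  simp

theorem f_rad {f : E3 → ℝ} (hf : Differentiable ℝ f) (h0 : 0 < rho t p) (h : rho t p < 4)
    (hp : ∀ y u : Circle, 0 < deriv (fun s : ℝ => f (tb t (y, s * u))) (rho t p)) :
    0 < fderiv ℝ f p (Ax t p 1) := by
  obtain ⟨z, h1, h2, rfl⟩ := exists_tb h0 h
  have k := hp z.1 (dir z.2)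
  have d := (differentiableAt_of_deriv_ne_zero k.ne').hasDerivAt.comp_of_eq 1
    (hasDerivAt_mul_const (rho t (tb t z))) (one_mul _).symm
  rw [(der_rad h1 (hf _)).unique (d.congr_of_eventuallyEq (Eventually.of_forall fun s => by
    simp only [comp, ← h2, Complex.ofReal_mul, mul_assoc, norm_mul_dir]))]
  exact mul_pos k h0

theorem dl_An (k : KD) {ψ : E3 → ℝ} (h0 : 0 < rho k.toTube p) (hψ : ContDiffAt ℝ ∞ ψ p) (w : E3) :
    dl (𝓡 3) (An k ψ) p w = dl (𝓡 3) (th k) p w + fderiv ℝ ψ p w := by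
  rw [show An k ψ = th k * fun q => Circle.exp (ψ q) from rfl,
    dl_mul (contMDiffAt_th k h0) (csm_exp hψ.contMDiffAt), LinearMap.add_apply,
    dl_exp hψ.contMDiffAt, mf_eq_fderiv]

/-! ### scaling -/

/-- the homothety of the solid torus -/
def hm : (Circle × ℂ) ≃ₘ^∞⟮IT, IT⟯ (Circle × ℂ) :=
  diffeoOf (fun z => (z.1, ((64 : ℝ) : ℂ) * z.2)) (fun z => (z.1, ((64⁻¹ : ℝ) : ℂ) * z.2))
    (contMDiff_fst.prodMk ((contDiff_const.mul contDiff_id).contMDiff.comp contMDiff_snd))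
    (contMDiff_fst.prodMk ((contDiff_const.mul contDiff_id).contMDiff.comp contMDiff_snd))
    (fun z => by simp) fun z => by simp

theorem hm_apply (z : Circle × ℂ) : hm z = (z.1, ((64 : ℝ) : ℂ) * z.2) := rfl

theorem norm_hm (z : Circle × ℂ) : ‖(hm z).2‖ = 64 * ‖z.2‖ := by simp [hm_apply]

/-- the tube `(u, z) ↦ τ (u, 64 z)` -/
def shT (t : Tube) : Tube := ⟨t.τ ∘ hm, ld_comp t.ld hm.isLocalDiffeomorph, t.inj.comp hm.injective⟩

theorem image_shT (t : Tube) (P : ℝ → Prop) :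
    (shT t).τ '' {v | P (64 * ‖v.2‖)} = t.τ '' {v | P ‖v.2‖} := by
  ext x
  constructor
  · rintro ⟨v, hv, rfl⟩
    exact ⟨hm v, by rwa [mem_ofPred_eq, norm_hm], rfl⟩
  · rintro ⟨v, hv, rfl⟩
    obtain ⟨v, rfl⟩ := hm.surjective v
    exact ⟨v, by rwa [mem_ofPred_eq, ← norm_hm], rfl⟩

theorem core_shT (t : Tube) : (shT t).thick.core = t.thick.core := by
  have e : ∀ (u : Tube) (c : ℝ), c ≠ 0 → u.thick.core = u.τ '' {v | c * ‖v.2‖ = 0} := fun u c hc =>
    congrArg (u.τ '' ·) (Set.ext fun v => by simp [hc])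
  rw [e _ 64 (by norm_num), image_shT t (· = 0), e _ 1 one_ne_zero]
  simp only [one_mul]

theorem ctube_shT (t : Tube) (r : ℝ) : ctube (shT t) r = ctube t (64 * r) := by
  rw [ctube, ctube, ← image_shT t (· ≤ 64 * r)]
  simp only [mul_le_mul_iff_right₀ (by norm_num : (0 : ℝ) < 64)]

theorem pole_shT (t : Tube) : (shT t).τ (1, 0) = t.τ (1, 0) := congrArg t.τ (by simp [hm_apply])

theorem sg_shT (t : Tube) : sg (shT t) = sg t := by rw [sg, sg, pole_shT]

theorem tb_shT (t : Tube) : tb (shT t) = tb t ∘ hm := by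
  ext1 z
  rw [tb, pole_shT]
  rfl

theorem Out_shT (t : Tube) (r : ℝ) : Out (shT t) r = Out t (64 * r) := by
  rw [Out, Out, sg_shT, ctube_shT]

/-- the knot datum with the fatter tube -/
def shr (k : KD) : KD where
  toTube := shT k.toTube
  θ x := thK k x
  smθ x := (contMDiffAt_thK k (fun h => x.2 ((core_shT _).ge h))).comp x
    contMDiff_subtype_val.contMDiffAt
  θτ a := (thK_τ k (v := hm a) (mul_ne_zero (by simp) a.2)).trans (dir_real_mul (by norm_num) a.2)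

theorem th_shr (k : KD) : th (shr k) = th k := by
  ext1 p
  by_cases h : sg k.toTube p ∈ k.Ext
  · have h' : sg (shr k).toTube p ∈ (shr k).Ext := fun n =>
      h ((core_shT _).le (sg_shT k.toTube ▸ n))
    rw [th_eq _ h', th_eq _ h]
    exact (congrArg (fun f : E3 → S3 => thK k (f p)) (sg_shT _)).trans (ex_mem _ _ h)
  · have h' : sg (shr k).toTube p ∉ (shr k).Ext := fun n =>
      h fun l => n ((core_shT _).ge ((sg_shT k.toTube).symm ▸ l))
    rw [th, th, extend_apply' _ _ _ fun ⟨x, e⟩ => h' (e ▸ x.2),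
      extend_apply' _ _ _ fun ⟨x, e⟩ => h (e ▸ x.2)]
    rfl

theorem An_shr (k : KD) (ψ : E3 → ℝ) : An (shr k) ψ = An k ψ := by
  ext1 p
  rw [An, An, th_shr]

theorem Ax_shT (n : z.2 ≠ 0) : Ax (shT t) (tb (shT t) z) = Ax t (tb t (hm z)) := by
  refine (has_Ax n).unique ((has_Ax (z := hm z) (mul_ne_zero (by simp) n)).congr_of_eventuallyEq
    (Eventually.of_forall fun ζ => ?_))
  simp only [tb_shT, comp, hm_apply, mul_left_comm ζ]

theorem ss_shr {k : KD} {V : E3 → E3} {ψ : E3 → ℝ} {M : Set E3} (S : SS (shr k) r V ψ M) :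
    SS k (64 * r) V ψ M := by
  have e : ∀ s, Out (shr k).toTube (r / s) = Out k.toTube (64 * r / s) := fun s => by
    rw [mul_div_assoc]; exact Out_shT _ _
  obtain ⟨h0, h1, h2, ⟨c, h3⟩, h4, h5, h6, h7, h8, h9, h10⟩ := S
  rw [e] at h1 h2 h6 h7 h9 h10
  rw [An_shr] at h6 h7 h8 h9 h10
  refine ⟨by positivity, h1, h2, ⟨c, fun z a b => ?_⟩, h4, h5.trans_eq (Out_shT _ _), h6, h7, h8, h9,
    h10⟩
  obtain ⟨z, rfl⟩ := hm.surjective z
  have a' : 64 * r / 4 < ‖(hm z).2‖ := a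
  have b' : ‖(hm z).2‖ ≤ 64 * r := b
  rw [norm_hm] at a' b'
  have n : z.2 ≠ 0 := norm_pos_iff.1 (by linarith)
  have n' : (hm z).2 ≠ 0 := mul_ne_zero (by simp) n
  obtain ⟨k1, k2⟩ := h3 z (by linarith) (by linarith)
  have e1 : tb (shT k.toTube) z = tb k.toTube (hm z) := congrFun (tb_shT _) z
  have k3 : V (tb (shT k.toTube) z) = Ax (shT k.toTube) (tb (shT k.toTube) z) Complex.I :=
    k2.trans (Ax_eq n _).symm
  rw [Ax_shT n, e1, Ax_eq n'] at k3
  exact ⟨(congrArg ψ e1).symm.trans k1, k3⟩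

theorem sclStmt : SclStmt := fun k => ⟨shr k, Out_shT _,
  fun r p h => (Out_shT k.toTube r).le fun ⟨z, h1, h2⟩ => by
    have h' : r < rhoS (shT k.toTube) (sg (shT k.toTube) p) := h
    rw [← h2, rhoS_τ] at h'
    exact ((min_le_left _ _).trans h1).not_gt h', core_shT _,
  by simp only [ThickKnot.IsUnknot, show (shr k).thick.core = _ from core_shT _],
  fun _ _ _ _ => ss_shr⟩

end Crest.Agent.X212.Lev39
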